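import Vale.Agent.P196.Cut.Crit

/-!
# P196, cutting, block S-CSG: structure of the group of a cell system

* `G_le_grp`: the group of a cell system with local types is contained in `grp`;
* `G_perfect`: it is perfect;
* `exists_prod`: it is a product of alternating groups;
* `commute_of_disjoint`: the groups of cell systems with disjoint supports commute.
-/

set_option linter.unusedSectionVars false

noncomputable section

namespace Vale.Agent.P196.Cut

open Equiv Vale.Agent.P196.S0

variable {N : ℤ} {J Θ : Type} {ι : Type} [Fintype ι] [DecidableEq ι]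

theorem alternatingGroup_eq_bot_of_isEmpty {α : Type*} [Fintype α] [DecidableEq α] [IsEmpty α] :
    alternatingGroup α = ⊥ := by
  rw [Subgroup.eq_bot_iff_forall]
  intro x _
  exact Subsingleton.elim _ _

/-- The alternating group, as a subgroup, is perfect. -/
theorem alternatingGroup_le_commutator {α : Type*} [Fintype α] [DecidableEq α]
    (h : IsEmpty α ∨ 5 ≤ Fintype.card α) :
    alternatingGroup α ≤ ⁅alternatingGroup α, alternatingGroup α⁆ := by
  rcases h with h | h
  · rw [alternatingGroup_eq_bot_of_isEmpty]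
    exact bot_le
  · have h1 := commutator_alternatingGroup_eq_top (α := α) (by rwa [Nat.card_eq_fintype_card])
    have h2 : (⊤ : Subgroup (alternatingGroup α)).map (alternatingGroup α).subtype =
        alternatingGroup α := by
      rw [← MonoidHom.range_eq_map, Subgroup.range_subtype]
    have h3 := congrArg (Subgroup.map (alternatingGroup α).subtype) h1
    rw [commutator_def, Subgroup.map_commutator, h2] at h3
    exact h3.ge

namespace CS

/-- (g1) The group of a cell system with local types is contained in `grp`. -/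
theorem G_le_grp (C : CS N J Θ) (hι : 5 ≤ Fintype.card ι) {LS : Set (Set Z2)}
    (h : ∀ j θ, C.E j θ ∈ LS) : C.G ι ≤ grp ι LS := by
  refine iSup_le ?_
  rintro ⟨j, θ⟩ _ ⟨σ, hσ, rfl⟩
  exact blow_mem hι (h j θ) (C.small j θ) σ hσ

theorem card_cell_or (C : CS N J Θ) (j : J) {n : ℕ} (hι : n ≤ Fintype.card ι) :
    IsEmpty (C.D j × ι) ∨ n ≤ Fintype.card (C.D j × ι) := by
  rcases (C.D j).eq_empty_or_nonempty with h | ⟨v, hv⟩
  · left
    constructor
    rintro ⟨⟨v, hv⟩, _⟩
    rw [h] at hv
    simp at hv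
  · right
    rw [Fintype.card_prod]
    have : 1 ≤ Fintype.card (C.D j) := Fintype.card_pos_iff.2 ⟨⟨v, hv⟩⟩
    nlinarith

theorem X_perfect (C : CS N J Θ) (hι : 5 ≤ Fintype.card ι) (j : J) (θ : Θ) :
    C.X ι j θ ≤ ⁅C.X ι j θ, C.X ι j θ⁆ := by
  unfold X
  rw [← Subgroup.map_commutator]
  exact Subgroup.map_mono (alternatingGroup_le_commutator (C.card_cell_or j hι))

/-- (g2) The group of a cell system is perfect. -/
theorem G_perfect (C : CS N J Θ) (hι : 5 ≤ Fintype.card ι) : ⁅C.G ι, C.G ι⁆ = C.G ι := by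
  apply le_antisymm
  · rw [Subgroup.commutator_le]
    intro g hg h hh
    rw [commutatorElement_def]
    exact mul_mem (mul_mem (mul_mem hg hh) (inv_mem hg)) (inv_mem hh)
  · refine iSup_le fun q => ?_
    exact (C.X_perfect hι q.1 q.2).trans
      (Subgroup.commutator_mono (C.X_le_G q.1 q.2) (C.X_le_G q.1 q.2))

/-! ### Disjoint supports -/

/-- Elements of the group move no site outside the cells. -/
theorem G_fix (C : CS N J Θ) {g : Perm (Z2 × ι)} (hg : g ∈ C.G ι) {z : Z2 × ι}
    (hz : C.lab z.1 = none) : g z = z :=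
  (C.isIn_of_mem hg).acts.none z hz

/-- (g4) The groups of two cell systems with disjoint supports commute. -/
theorem commute_of_disjoint {N' : ℤ} {J' Θ' : Type} (C : CS N J Θ) (C' : CS N' J' Θ')
    (h : ∀ u, C.lab u = none ∨ C'.lab u = none) {g g' : Perm (Z2 × ι)} (hg : g ∈ C.G ι)
    (hg' : g' ∈ C'.G ι) : Commute g g' := by
  apply Perm.Disjoint.commute
  intro z
  rcases h z.1 with h1 | h1
  · exact Or.inl (C.G_fix hg h1)
  · exact Or.inr (C'.G_fix hg' h1)

/-! ### Product structure -/

/-- The sites of the cells of label `j` and type `θ`. -/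
def sites (C : CS N J Θ) (ι : Type) (q : J × Θ) : Set (Z2 × ι) :=
  {z | C.lab z.1 = some q.1 ∧ C.typ q.1 (C.anch z.1) = q.2}

theorem sites_disjoint (C : CS N J Θ) {q q' : J × Θ} (h : q ≠ q') :
    Disjoint (C.sites ι q) (C.sites ι q') := by
  rw [Set.disjoint_left]
  rintro z ⟨h1, h2⟩ ⟨h3, h4⟩
  apply h
  rw [h1] at h3
  have h5 := Option.some.inj h3
  refine Prod.ext h5 ?_
  rw [← h2, ← h4, h5]

/-- The factor of label and type `q`. -/
def fac (C : CS N J Θ) (ι : Type) [Fintype ι] [DecidableEq ι] (q : J × Θ) :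
    alternatingGroup (C.D q.1 × ι) →* Perm (Z2 × ι) :=
  (blow (C.E q.1 q.2) (C.D q.1) (C.small q.1 q.2)).comp (alternatingGroup (C.D q.1 × ι)).subtype

theorem fac_range (C : CS N J Θ) (q : J × Θ) : (C.fac ι q).range = C.X ι q.1 q.2 := by
  unfold fac X
  rw [MonoidHom.range_comp, Subgroup.range_subtype]

theorem fac_fix (C : CS N J Θ) (q : J × Θ) (σ : alternatingGroup (C.D q.1 × ι)) {z : Z2 × ι}
    (hz : z ∉ C.sites ι q) : C.fac ι q σ z = z := by
  obtain ⟨u, f⟩ := z
  apply blow_eq_self
  rintro ⟨v, hv⟩ ⟨p, hp, ht⟩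
  exfalso
  apply hz
  have hu : u = N • p + v := by rw [← hp]; abel
  refine ⟨?_, ?_⟩
  · simp only [hu]
    exact C.lab_zero_add hv p
  · simp only [hu]
    rw [C.anch_zero_add hv p]
    exact ht

theorem fac_commute (C : CS N J Θ) {q q' : J × Θ} (h : q ≠ q')
    (σ : alternatingGroup (C.D q.1 × ι)) (τ : alternatingGroup (C.D q'.1 × ι)) :
    Commute (C.fac ι q σ) (C.fac ι q' τ) := by
  apply Perm.Disjoint.commute
  intro z
  by_cases hz : z ∈ C.sites ι q
  · exact Or.inr (C.fac_fix q' τ (Set.disjoint_left.1 (C.sites_disjoint h) hz))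
  · exact Or.inl (C.fac_fix q σ hz)

theorem fac_injective (C : CS N J Θ) {q : J × Θ} (h : (C.E q.1 q.2).Nonempty) :
    Function.Injective (C.fac ι q) := by
  intro σ τ hst
  exact Subtype.ext (blow_injective (C.small q.1 q.2) h hst)

theorem fac_range_le (C : CS N J Θ) (q : J × Θ) :
    (C.fac ι q).range ≤ fixingSubgroup (Perm (Z2 × ι)) (C.sites ι q)ᶜ := by
  rintro _ ⟨σ, rfl⟩
  rw [mem_fixingSubgroup_iff]
  intro z hz
  exact C.fac_fix q σ hz

/-- The index set of the nontrivial factors. -/
abbrev Idx (C : CS N J Θ) : Type :=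
  {q : J × Θ // (C.E q.1 q.2).Nonempty ∧ (C.D q.1).Nonempty}

instance instFintypeIdx [Fintype J] [Fintype Θ] (C : CS N J Θ) : Fintype C.Idx :=
  Fintype.ofInjective (fun q : C.Idx => q.1) Subtype.val_injective

theorem card_Idx [Fintype J] [Fintype Θ] (C : CS N J Θ) :
    Fintype.card C.Idx ≤ Fintype.card J * Fintype.card Θ := by
  classical
  rw [← Fintype.card_prod]
  exact Fintype.card_le_of_injective (fun q : C.Idx => q.1) Subtype.val_injective

theorem fac_pairwise (C : CS N J Θ) (ι : Type) [Fintype ι] [DecidableEq ι] :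
    Pairwise fun s t : C.Idx => ∀ (x : alternatingGroup (C.D s.1.1 × ι))
      (y : alternatingGroup (C.D t.1.1 × ι)), Commute (C.fac ι s.1 x) (C.fac ι t.1 y) :=
  fun _ _ h => C.fac_commute (fun h' => h (Subtype.ext h'))

/-- The group as a product. -/
def prodHom [Fintype J] [Fintype Θ] (C : CS N J Θ) (ι : Type) [Fintype ι] [DecidableEq ι] :
    ((t : C.Idx) → alternatingGroup (C.D t.1.1 × ι)) →* Perm (Z2 × ι) :=
  MonoidHom.noncommPiCoprod (fun t : C.Idx => C.fac ι t.1) (C.fac_pairwise ι)

theorem prodHom_injective [Fintype J] [Fintype Θ] (C : CS N J Θ) :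
    Function.Injective (C.prodHom ι) := by
  apply MonoidHom.injective_noncommPiCoprod_of_iSupIndep
  · intro t
    rw [Subgroup.disjoint_def]
    intro x hx hx'
    have h1 := C.fac_range_le t.1 hx
    have h2 : (⨆ (s : C.Idx) (_ : s ≠ t), (C.fac ι s.1).range) ≤
        fixingSubgroup (Perm (Z2 × ι)) (C.sites ι t.1) := by
      refine iSup_le fun s => iSup_le fun hs => ?_
      refine (C.fac_range_le s.1).trans (fixingSubgroup_antitone _ _ ?_)
      intro z hz hz'
      exact Set.disjoint_left.1 (C.sites_disjoint (fun h => hs (Subtype.ext h))) hz' hz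
    have h3 := h2 hx'
    rw [mem_fixingSubgroup_iff] at h1 h3
    ext1 z
    by_cases hz : z ∈ C.sites ι t.1
    · exact h3 z hz
    · exact h1 z hz
  · intro t
    exact C.fac_injective t.2.1

theorem prodHom_range [Fintype J] [Fintype Θ] (C : CS N J Θ) :
    (C.prodHom ι).range = C.G ι := by
  unfold prodHom
  rw [MonoidHom.noncommPiCoprod_range]
  apply le_antisymm
  · refine iSup_le fun t => ?_
    rw [C.fac_range]
    exact C.X_le_G _ _
  · refine iSup_le fun q => ?_
    by_cases h : (C.E q.1 q.2).Nonempty ∧ (C.D q.1).Nonempty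
    · rw [← C.fac_range]
      exact le_iSup (fun t : C.Idx => (C.fac ι t.1).range) ⟨q, h⟩
    · have : C.X ι q.1 q.2 = ⊥ := by
        rw [Subgroup.eq_bot_iff_forall]
        rintro _ ⟨σ, -, rfl⟩
        ext1 ⟨u, f⟩
        apply blow_eq_self
        rintro ⟨v, hv⟩ hE
        exact absurd ⟨⟨_, hE⟩, ⟨v, hv⟩⟩ h
      rw [this]
      exact bot_le

/-- (g3) The group of a cell system is a product of alternating groups. -/
theorem exists_prod [Fintype J] [Fintype Θ] (C : CS N J Θ) {n : ℕ} (hι : n ≤ Fintype.card ι) :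
    ∃ (T : Type) (_ : Fintype T) (_ : DecidableEq T) (M : T → Type) (_ : ∀ t, Fintype (M t))
      (_ : ∀ t, DecidableEq (M t))
      (φ : ((t : T) → alternatingGroup (M t)) →* Perm (Z2 × ι)),
      Fintype.card T ≤ Fintype.card J * Fintype.card Θ ∧ (∀ t, n ≤ Fintype.card (M t)) ∧
      Function.Injective φ ∧ φ.range = C.G ι := by
  classical
  refine ⟨C.Idx, inferInstance, Classical.decEq _, fun t => C.D t.1.1 × ι,
    fun t => inferInstance, fun t => inferInstance, C.prodHom ι, C.card_Idx, ?_,
    C.prodHom_injective, C.prodHom_range⟩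
  rintro ⟨q, h1, v, hv⟩
  rcases C.card_cell_or q.1 hι with h | h
  · have : 0 < n ∨ n = 0 := by omega
    rcases this with h0 | h0
    · have : Nonempty ι := Fintype.card_pos_iff.1 (by omega)
      obtain ⟨i⟩ := this
      exact (h.false (⟨v, hv⟩, i)).elim
    · omega
  · exact h

end CS

end Vale.Agent.P196.Cut
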