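import Vale.Agent.P196.Cut.CSG
import Vale.Agent.P196.H798.KernelBound
import Vale.Agent.P196.H700.Input

/-!
# P196, cutting: kernel bound for the lift of the group of a cell system
-/

noncomputable section

namespace Vale.Agent.P196.Cut.CS

open Equiv Vale.Agent.P196.S0 Subgroup

variable {N : ℤ} {J Θ : Type} {ι : Type} [Fintype ι] [DecidableEq ι]

/-- The product decomposition inside a group `H` containing the group of the cell system. -/
theorem exists_prod_subgroupOf [Fintype J] [Fintype Θ] (C : CS N J Θ) {n : ℕ}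
    (hι : n ≤ Fintype.card ι) {H : Subgroup (Perm (Z2 × ι))} (hle : C.G ι ≤ H) :
    ∃ (T : Type) (_ : Fintype T) (_ : DecidableEq T) (M : T → Type) (_ : ∀ t, Fintype (M t))
      (_ : ∀ t, DecidableEq (M t))
      (φ : ((t : T) → alternatingGroup (M t)) →* H),
      Fintype.card T ≤ Fintype.card J * Fintype.card Θ ∧ (∀ t, n ≤ Fintype.card (M t)) ∧
      Function.Injective φ ∧ φ.range = (C.G ι).subgroupOf H := by
  obtain ⟨T, i1, i2, M, i3, i4, φ, h1, h2, h3, h4⟩ := C.exists_prod hι
  have hmem : ∀ x, φ x ∈ H := fun x => hle (h4 ▸ MonoidHom.mem_range.2 ⟨x, rfl⟩)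
  refine ⟨T, i1, i2, M, i3, i4, φ.codRestrict H hmem, h1, h2, ?_, ?_⟩
  · intro x y hxy
    exact h3 (congrArg Subtype.val hxy)
  · ext ⟨x, hx⟩
    rw [mem_subgroupOf, MonoidHom.mem_range, ← h4, MonoidHom.mem_range]
    constructor
    · rintro ⟨y, hy⟩
      exact ⟨y, congrArg Subtype.val hy⟩
    · rintro ⟨y, hy⟩
      exact ⟨y, Subtype.ext hy⟩

/-- The perfect lift of the group of a cell system to a central extension meets the kernel in a
number of elements bounded in terms of the number of labels and types only. -/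
theorem kernel_bound [Fintype J] [Fintype Θ] (C : CS N J Θ) (hι : 8 ≤ Fintype.card ι)
    {H : Subgroup (Perm (Z2 × ι))} (hle : C.G ι ≤ H) {E : Type*} [Group E] (π : E →* H)
    (hker : π.ker ≤ center E) (hs : Function.Surjective π) :
    ((π.ker ⊓ ⁅((C.G ι).subgroupOf H).comap π, ((C.G ι).subgroupOf H).comap π⁆ :
      Subgroup E) : Set E).Finite ∧
    Nat.card (π.ker ⊓ ⁅((C.G ι).subgroupOf H).comap π, ((C.G ι).subgroupOf H).comap π⁆ :
      Subgroup E) ≤ 4 ^ (Fintype.card J * Fintype.card Θ) := by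
  obtain ⟨T, i1, i2, M, i3, i4, φ, h1, h2, h3, h4⟩ := C.exists_prod_subgroupOf hι hle
  have h := H798.kernel_bound π hker hs φ h2 h3
  rw [h4] at h
  exact ⟨h.1, h.2.trans (Nat.pow_le_pow_right (by norm_num) h1)⟩

/-- (g2) inside `H`. -/
theorem subgroupOf_perfect (C : CS N J Θ) (hι : 5 ≤ Fintype.card ι)
    {H : Subgroup (Perm (Z2 × ι))} (hle : C.G ι ≤ H) :
    ⁅(C.G ι).subgroupOf H, (C.G ι).subgroupOf H⁆ = (C.G ι).subgroupOf H := by
  apply map_injective H.subtype_injective
  rw [map_commutator, subgroupOf_map_subtype, inf_eq_left.2 hle, C.G_perfect hι]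

/-- The group of a cell system is a product of alternating groups, in the form of the interface. -/
theorem isAltProd [Finite J] [Finite Θ] (C : CS N J Θ) (hι : 8 ≤ Fintype.card ι) {b : ℕ}
    (hb : Nat.card J * Nat.card Θ ≤ b) : H700.IsAltProd b (C.G ι) := by
  classical
  have := Fintype.ofFinite J
  have := Fintype.ofFinite Θ
  obtain ⟨T, i1, i2, M, i3, i4, φ, h1, h2, h3, h4⟩ := C.exists_prod hι
  refine ⟨T, i1, M, i3, i4, φ, h1.trans ?_, h2, h3, h4⟩
  rwa [Nat.card_eq_fintype_card, Nat.card_eq_fintype_card] at hb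

end Vale.Agent.P196.Cut.CS
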