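import Vale.Agent.P196.Cut.Geo

/-!
# Sign corrections by fixed transpositions
-/

set_option linter.unusedSectionVars false

noncomputable section

namespace Vale.Agent.P196.Cut

open Equiv Vale.Agent.P196.S0

namespace CS

variable {N : ℤ} {J Θ : Type} {ι : Type} [Fintype ι] [DecidableEq ι]

/-- The sign on a cell depends only on the type of the cell. -/
theorem sgn_typ (C : CS N J Θ) {g : Perm (Z2 × ι)} (hg : C.Acts g) {p p' : Z2} {j : J}
    (h : C.typ j p' = C.typ j p) : sgnOn (C.cell ι p' j) g = sgnOn (C.cell ι p j) g := by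
  apply sgnOn_image (fun z : Z2 × ι => (z.1 + N • (p' - p), z.2))
  · intro z _ w _ hzw
    simp only [Prod.mk.injEq, add_left_inj] at hzw
    exact Prod.ext hzw.1 hzw.2
  · ext z
    rw [Finset.mem_image, C.mem_cell]
    constructor
    · rintro ⟨h1, h2⟩
      refine ⟨(z.1 + N • (-(p' - p)), z.2), ?_, ?_⟩
      · rw [C.mem_cell, C.anch_add, C.lab_add, h1, h2]
        exact ⟨by abel, rfl⟩
      · refine Prod.ext ?_ rfl
        change z.1 + N • (-(p' - p)) + N • (p' - p) = z.1
        rw [smul_neg]; abel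
    · rintro ⟨w, hw, rfl⟩
      rw [C.mem_cell] at hw
      simp only
      rw [C.anch_add, C.lab_add, hw.1, hw.2]
      exact ⟨by abel, rfl⟩
  · exact hg.inv_cell p j
  · intro z hz
    rw [C.mem_cell] at hz
    apply hg.equi z j (p' - p) hz.2
    rw [hz.1]
    rw [show p + (p' - p) = p' by abel]
    exact h

end CS

variable {M : ℤ} {T Th Tv Tf : Type} {ι : Type} [Fintype ι] [DecidableEq ι]

theorem emod_of_hf_dI (hM : 0 < M) (x : ℤ) :
    x % (2 * M) = if hf M x then 2 * M - 1 - dI M x else dI M x := by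
  obtain ⟨_, h2, h3⟩ := emod_facts hM x
  unfold hf dI
  by_cases h : M ≤ x % (2 * M)
  · have h' : ¬ x % (2 * M) < M := by omega
    simp only [h, h', decide_true, if_true, if_false]
    omega
  · have h' : x % (2 * M) < M := by omega
    simp [h, h']

/-- A point of the line is determined by `fI`, `hf`, `dI`. -/
theorem eq_of_dI (hM : 0 < M) {x y : ℤ} (h1 : fI M x = fI M y) (h2 : hf M x = hf M y)
    (h3 : dI M x = dI M y) : x = y := by
  have hx := emod_of_hf_dI hM x
  have hy := emod_of_hf_dI hM y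
  rw [h2, h3, ← hy] at hx
  obtain ⟨ex, _, _⟩ := emod_facts hM x
  obtain ⟨ey, _, _⟩ := emod_facts hM y
  unfold fI at h1
  rw [ex, ey, h1, hx]

/-- `x` and `y` with the same `hf`, `dI` differ by a multiple of `2 * M`. -/
theorem sub_of_dI (hM : 0 < M) {x y : ℤ} (h2 : hf M x = hf M y)
    (h3 : dI M x = dI M y) : x = y + 2 * M * (fI M x - fI M y) := by
  have hx := emod_of_hf_dI hM x
  have hy := emod_of_hf_dI hM y
  rw [h2, h3, ← hy] at hx
  obtain ⟨ex, _, _⟩ := emod_facts hM x
  obtain ⟨ey, _, _⟩ := emod_facts hM y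
  unfold fI
  rw [mul_sub]
  omega

/-- existence of a point with prescribed `fI`, `hf`, `dI` -/
theorem exists_dI (hM : 0 < M) (k : ℤ) (b : Bool) {c : ℤ} (h0 : 0 ≤ c) (h1 : c < M) :
    ∃ x, fI M x = k ∧ hf M x = b ∧ dI M x = c := by
  cases b
  · obtain ⟨h2, h3⟩ := div_mod_unique hM (x := 2 * M * k + c) rfl h0 (by omega)
    refine ⟨2 * M * k + c, h2, ?_, ?_⟩
    · unfold hf
      rw [h3]
      simp [h1]
    · unfold dI
      rw [h3, if_pos h1]
  · obtain ⟨h2, h3⟩ := div_mod_unique hM (x := 2 * M * k + (2 * M - 1 - c)) rfl (by omega)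
      (by omega)
    refine ⟨2 * M * k + (2 * M - 1 - c), h2, ?_, ?_⟩
    · unfold hf
      rw [h3]
      simp only [decide_eq_true_eq]
      omega
    · unfold dI
      rw [h3, if_neg (by omega)]
      ring

theorem isPos_smul_add (u k : Z2) : isPos M (u + (2 * M) • k) ↔ isPos M u := by
  have h1 : dI M (u + (2 * M) • k).1 = dI M u.1 := by simpa using dI_add u.1 k.1
  have h2 : dI M (u + (2 * M) • k).2 = dI M u.2 := by simpa using dI_add u.2 k.2
  unfold isPos
  rw [h1, h2]

/-- the two coordinates of a position, from its side -/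
theorem isPos_dI (hM : 4 ≤ M) {u : Z2} (h : isPos M u) :
    dI M u.1 = (if sH M u then M - 1 else M / 2) ∧ dI M u.2 = if sH M u then M / 2 else M - 1 := by
  rcases h with ⟨h1, h2⟩ | ⟨h1, h2⟩
  · have : sH M u = true := by rw [sH_eq_true, h1, h2]; omega
    rw [this]
    simp [h1, h2]
  · have : sH M u = false := by rw [sH_eq_false, h1, h2]; omega
    rw [this]
    simp [h1, h2]

theorem isPos_hR (hM : 4 ≤ M) {u : Z2} (h : isPos M u) : hR M u = M / 2 := by
  obtain ⟨h1, h2⟩ := isPos_dI hM h
  unfold hR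
  cases hs : sH M u <;> simp [hs] at h1 h2 ⊢ <;> assumption

/-- octant shape -/
def oct (M : ℤ) (u : Z2) : Bool × Bool × Bool := (hf M u.1, hf M u.2, sH M u)

theorem oct_add (u k : Z2) : oct M (u + (2 * M) • k) = oct M u := by
  unfold oct
  rw [hf_add1, hf_add2, sH_add]

/-- positions with the same octant shape and the same face are equal -/
theorem pos_unique (hM : 4 ≤ M) {u u' : Z2} (h : isPos M u) (h' : isPos M u')
    (ho : oct M u = oct M u') (ha : aF M u = aF M u') : u = u' := by
  obtain ⟨h1, h2⟩ := isPos_dI hM h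
  obtain ⟨h3, h4⟩ := isPos_dI hM h'
  unfold oct at ho
  simp only [Prod.mk.injEq] at ho
  rw [← ho.2.2] at h3 h4
  exact Prod.ext (eq_of_dI (by omega) (congrArg Prod.fst ha) ho.1 (h1.trans h3.symm))
    (eq_of_dI (by omega) (congrArg Prod.snd ha) ho.2.1 (h2.trans h4.symm))

/-- positions with the same octant shape are congruent -/
theorem pos_congr (hM : 4 ≤ M) {u u' : Z2} (h : isPos M u) (h' : isPos M u')
    (ho : oct M u = oct M u') : u' = u + (2 * M) • (aV M u' - aV M u) := by
  obtain ⟨h1, h2⟩ := isPos_dI hM h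
  obtain ⟨h3, h4⟩ := isPos_dI hM h'
  unfold oct at ho
  simp only [Prod.mk.injEq] at ho
  rw [← ho.2.2] at h3 h4
  have e1 := sub_of_dI (show 0 < M by omega) ho.1.symm (h3.trans h1.symm)
  have e2 := sub_of_dI (show 0 < M by omega) ho.2.1.symm (h4.trans h2.symm)
  have f1 : vI M u'.1 - vI M u.1 = fI M u'.1 - fI M u.1 := by
    rw [vI_eq (by omega), vI_eq (by omega), ho.1]; ring
  have f2 : vI M u'.2 - vI M u.2 = fI M u'.2 - fI M u.2 := by
    rw [vI_eq (by omega), vI_eq (by omega), ho.2.1]; ring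
  refine Prod.ext ?_ ?_
  · change u'.1 = u.1 + (2 * M) * (vI M u'.1 - vI M u.1)
    rw [f1]; exact e1
  · change u'.2 = u.2 + (2 * M) * (vI M u'.2 - vI M u.2)
    rw [f2]; exact e2

/-- existence of positions -/
theorem exists_pos (hM : 4 ≤ M) (k : Z2) (o : Bool × Bool × Bool) :
    ∃ u, isPos M u ∧ oct M u = o ∧ aF M u = k := by
  obtain ⟨b1, b2, h⟩ := o
  cases h
  · obtain ⟨x, hx1, hx2, hx3⟩ := exists_dI (M := M) (by omega) k.1 b1
      (c := M / 2) (by omega) (by omega)
    obtain ⟨y, hy1, hy2, hy3⟩ := exists_dI (M := M) (by omega) k.2 b2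
      (c := M - 1) (by omega) (by omega)
    refine ⟨(x, y), Or.inr ⟨hx3, hy3⟩, ?_, Prod.ext hx1 hy1⟩
    have : sH M (x, y) = false := by
      rw [sH_eq_false]
      change dI M x < dI M y
      rw [hx3, hy3]; omega
    unfold oct
    rw [this]
    simp only [hx2, hy2]
  · obtain ⟨x, hx1, hx2, hx3⟩ := exists_dI (M := M) (by omega) k.1 b1
      (c := M - 1) (by omega) (by omega)
    obtain ⟨y, hy1, hy2, hy3⟩ := exists_dI (M := M) (by omega) k.2 b2
      (c := M / 2) (by omega) (by omega)
    refine ⟨(x, y), Or.inl ⟨hx3, hy3⟩, ?_, Prod.ext hx1 hy1⟩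
    have : sH M (x, y) = true := by
      rw [sH_eq_true]
      change dI M y ≤ dI M x
      rw [hx3, hy3]; omega
    unfold oct
    rw [this]
    simp only [hx2, hy2]

section corr

variable {J Θ : Type} (C : CS (2 * M) J Θ) (g : Perm (Z2 × ι)) (des : Bool × Bool × Bool → Prop)

/-- The correction set: the designated positions of the cells on which `g` is odd. -/
def corr : Set Z2 :=
  {u | isPos M u ∧ des (oct M u) ∧ ∃ j, C.lab u = some j ∧ sgnOn (C.cell ι (C.anch u) j) g = -1}

variable {C g des}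

/-- The correction has the same sign as `g` on every cell, if every cell has exactly one
designated position. -/
theorem corr_sgn {a b : ι}
    (hsgn : ∀ (D : Finset Z2),
      sgnOn (D ×ˢ (Finset.univ : Finset ι)) (eP (corr C g des) (swap a b)) =
        (-1) ^ (open Classical in (D.filter (fun u => u ∈ corr C g des)).card))
    (hex : ∀ p j, C.D j = ∅ ∨ ∃ u, isPos M u ∧ des (oct M u) ∧ C.anch u = p ∧ C.lab u = some j)
    (huniq : ∀ u u', isPos M u → isPos M u' → des (oct M u) → des (oct M u') →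
      C.anch u = C.anch u' → C.lab u = C.lab u' → C.lab u ≠ none → u = u')
    (p : Z2) (j : J) :
    sgnOn (C.cell ι p j) (eP (corr C g des) (swap a b)) = sgnOn (C.cell ι p j) g := by
  classical
  have h1 : C.cell ι p j = ((C.D j).image (fun v => (2 * M) • p + v)) ×ˢ Finset.univ := rfl
  rcases hex p j with h0 | ⟨u, hu1, hu2, hu3, hu4⟩
  · have h2 : C.cell ι p j = ∅ := by
      rw [h1, h0]; simp
    rw [h2, sgnOn_of_fix (by simp), sgnOn_of_fix (by simp)]
  · rw [h1, hsgn, ← h1]
    have hmem : ∀ x, x ∈ (C.D j).image (fun v => (2 * M) • p + v) ↔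
        C.anch x = p ∧ C.lab x = some j := by
      intro x
      rw [Finset.mem_image]
      constructor
      · rintro ⟨v, hv, rfl⟩
        exact ⟨C.anch_zero_add hv p, C.lab_zero_add hv p⟩
      · rintro ⟨hx1, hx2⟩
        refine ⟨x - (2 * M) • p, ?_, by abel⟩
        rw [C.mem_D]
        have h3 : x - (2 * M) • p = x + (2 * M) • (-p) := by rw [smul_neg, sub_eq_add_neg]
        rw [h3, C.anch_add, C.lab_add, hx1, hx2]
        simp
    rcases Int.units_eq_one_or (sgnOn (C.cell ι p j) g) with hs | hs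
    · rw [hs]
      have : ((C.D j).image (fun v => (2 * M) • p + v)).filter (fun u => u ∈ corr C g des) = ∅ := by
        rw [Finset.filter_eq_empty_iff]
        intro x hx hxc
        rw [hmem] at hx
        obtain ⟨_, _, j', hj', hs'⟩ := hxc
        rw [hx.2] at hj'
        have := Option.some.inj hj'
        subst this
        rw [hx.1, hs] at hs'
        exact absurd hs' (by decide)
      rw [this]
      simp
    · rw [hs]
      have : ((C.D j).image (fun v => (2 * M) • p + v)).filter (fun u => u ∈ corr C g des) =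
          {u} := by
        ext x
        rw [Finset.mem_filter, Finset.mem_singleton, hmem]
        constructor
        · rintro ⟨⟨hx1, hx2⟩, hx3⟩
          exact huniq x u hx3.1 hu1 hx3.2.1 hu2 (hx1.trans hu3.symm) (hx2.trans hu4.symm)
            (by rw [hx2]; simp)
        · rintro rfl
          exact ⟨⟨hu3, hu4⟩, hu1, hu2, j, hu4, by rw [hu3]; exact hs⟩
      rw [this]
      simp

/-- The correction set is determined by octant and vertex type. -/
theorem corr_eq_posSet (hM : 4 ≤ M) (Y : TySys T Th Tv Tf) (hg : C.Acts g)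
    (hty : ∀ u k j, C.lab u = some j → Y.ty (aV M u + k) = Y.ty (aV M u) →
      C.typ j (C.anch u + k) = C.typ j (C.anch u)) :
    ∃ P, corr C g des = posSet M Y P := by
  refine ⟨{x | ∃ u ∈ corr C g des, x = (hf M u.1, hf M u.2, sH M u, Y.ty (aV M u))}, ?_⟩
  ext u
  constructor
  · intro hu
    exact ⟨hu.1, u, hu, rfl⟩
  · rintro ⟨hu, u', hu', heq⟩
    simp only [Prod.mk.injEq] at heq
    obtain ⟨e1, e2, e3, e4⟩ := heq
    obtain ⟨p1, p2, j, p3, p4⟩ := hu'
    have ho : oct M u' = oct M u := by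
      unfold oct
      rw [e1, e2, e3]
    have hc := pos_congr hM p1 hu ho
    set k := aV M u - aV M u' with hk
    have h1 : C.lab u = some j := by rw [hc, C.lab_add]; exact p3
    have h2 : C.anch u = C.anch u' + k := by rw [hc, C.anch_add]
    have h3 : C.typ j (C.anch u) = C.typ j (C.anch u') := by
      rw [h2]
      apply hty u' k j p3
      rw [hk, show aV M u' + (aV M u - aV M u') = aV M u by abel]
      exact e4
    refine ⟨hu, by rw [← ho]; exact p2, j, h1, ?_⟩
    rw [C.sgn_typ hg h3]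
    exact p4

/-- `eP E (swap a b)` acts for `C'` if `E` is invariant under the equivariance of `C'`. -/
theorem eP_acts {J' Θ' : Type} (C' : CS (2 * M) J' Θ') (E : Set Z2) (σ : Perm ι)
    (h0 : ∀ u ∈ E, C'.lab u ≠ none)
    (h : ∀ u k j, C'.lab u = some j → C'.typ j (C'.anch u + k) = C'.typ j (C'.anch u) →
      (u + (2 * M) • k ∈ E ↔ u ∈ E)) : C'.Acts (eP E σ) := by
  have hfst : ∀ z : Z2 × ι, (eP E σ z).1 = z.1 := by
    rintro ⟨u, f⟩
    by_cases hu : u ∈ E
    · rw [eP_apply_mem hu]
    · rw [eP_apply_notMem hu]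
  refine ⟨?_, ?_, ?_⟩
  · rintro ⟨u, f⟩ hz
    exact eP_apply_notMem (fun hu => h0 u hu hz)
  · intro z j hz
    rw [hfst]
    exact ⟨rfl, hz⟩
  · rintro ⟨u, f⟩ j k hz ht
    have := h u k j hz ht
    by_cases hu : u ∈ E
    · rw [eP_apply_mem hu]
      exact eP_apply_mem (this.2 hu)
    · rw [eP_apply_notMem hu]
      exact eP_apply_notMem (fun h' => hu (this.1 h'))

theorem corr_acts (hg : C.Acts g) (σ : Perm ι) : C.Acts (eP (corr C g des) σ) := by
  apply eP_acts
  · rintro u ⟨_, _, j, hj, _⟩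
    rw [hj]; simp
  · intro u k j hj ht
    change (isPos M (u + (2 * M) • k) ∧ des (oct M (u + (2 * M) • k)) ∧
      ∃ j, C.lab (u + (2 * M) • k) = some j ∧
        sgnOn (C.cell ι (C.anch (u + (2 * M) • k)) j) g = -1) ↔
      (isPos M u ∧ des (oct M u) ∧ ∃ j, C.lab u = some j ∧
        sgnOn (C.cell ι (C.anch u) j) g = -1)
    rw [isPos_smul_add, oct_add, C.lab_add, C.anch_add]
    have : ∀ j', C.lab u = some j' →
        sgnOn (C.cell ι (C.anch u + k) j') g = sgnOn (C.cell ι (C.anch u) j') g := by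
      intro j' hj'
      rw [hj] at hj'
      have := Option.some.inj hj'
      subst this
      exact C.sgn_typ hg ht
    constructor
    · rintro ⟨h1, h2, j', h3, h4⟩
      exact ⟨h1, h2, j', h3, by rw [← this j' h3]; exact h4⟩
    · rintro ⟨h1, h2, j', h3, h4⟩
      exact ⟨h1, h2, j', h3, by rw [this j' h3]; exact h4⟩

end corr

end Vale.Agent.P196.Cut
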