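import Mathlib.GroupTheory.Perm.Sign
import Mathlib.Tactic

/-!
# The sign of a permutation on a finite invariant set
-/

set_option linter.unusedSectionVars false

noncomputable section

namespace Vale.Agent.P196.Cut

open Equiv

variable {Ω : Type*} [DecidableEq Ω]

/-- `c` is invariant under `g`. -/
def Inv (c : Finset Ω) (g : Perm Ω) : Prop := ∀ z, g z ∈ c ↔ z ∈ c

theorem Inv.mul {c : Finset Ω} {g h : Perm Ω} (hg : Inv c g) (hh : Inv c h) : Inv c (g * h) :=
  fun z => (hg (h z)).trans (hh z)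

theorem Inv.one {c : Finset Ω} : Inv c (1 : Perm Ω) := fun _ => Iff.rfl

theorem Inv.inv {c : Finset Ω} {g : Perm Ω} (hg : Inv c g) : Inv c g⁻¹ := fun z => by
  have := hg (g⁻¹ z)
  simpa using this.symm

theorem inv_of_forall {c : Finset Ω} {g : Perm Ω} (h : ∀ z ∈ c, g z ∈ c) : Inv c g := by
  intro z
  refine ⟨fun hz => ?_, h z⟩
  have h1 : c.map g.toEmbedding = c := by
    apply Finset.eq_of_subset_of_card_le
    · intro w hw
      obtain ⟨y, hy, rfl⟩ := Finset.mem_map.1 hw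
      exact h y hy
    · rw [Finset.card_map]
  rw [← h1] at hz
  obtain ⟨y, hy, hyz⟩ := Finset.mem_map.1 hz
  have : y = z := g.injective hyz
  rwa [← this]

theorem Inv.union {c d : Finset Ω} {g : Perm Ω} (hc : Inv c g) (hd : Inv d g) :
    Inv (c ∪ d) g := fun z => by
  rw [Finset.mem_union, Finset.mem_union, hc z, hd z]

/-- The sign of `g` on the finite invariant set `c` (`1` if `c` is not invariant). -/
def sgnOn (c : Finset Ω) (g : Perm Ω) : ℤˣ :=
  open Classical in
  if h : Inv c g then Perm.sign (g.subtypePerm (p := fun z => z ∈ c) h) else 1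

theorem sgnOn_of_inv {c : Finset Ω} {g : Perm Ω} (h : Inv c g) :
    sgnOn c g = Perm.sign (g.subtypePerm (p := fun z => z ∈ c) h) := by
  rw [sgnOn, dif_pos h]

theorem sgnOn_mul {c : Finset Ω} {g h : Perm Ω} (hg : Inv c g) (hh : Inv c h) :
    sgnOn c (g * h) = sgnOn c g * sgnOn c h := by
  rw [sgnOn_of_inv hg, sgnOn_of_inv hh, sgnOn_of_inv (hg.mul hh), ← map_mul]
  rfl

/-- Transport of the sign. -/
theorem sgnOn_eq_sign {α : Type*} [Fintype α] [DecidableEq α] {c : Finset Ω} {g : Perm Ω}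
    (j : α → Ω) (hj : Function.Injective j) (hc : ∀ z, z ∈ c ↔ ∃ a, j a = z) (σ : Perm α)
    (h : ∀ a, g (j a) = j (σ a)) : sgnOn c g = Perm.sign σ := by
  have hinv : Inv c g := by
    apply inv_of_forall
    intro z hz
    obtain ⟨a, rfl⟩ := (hc z).1 hz
    rw [h a]
    exact (hc _).2 ⟨_, rfl⟩
  rw [sgnOn_of_inv hinv]
  let e : α ≃ {z // z ∈ c} := Equiv.ofBijective (fun a => ⟨j a, (hc _).2 ⟨a, rfl⟩⟩)
    ⟨fun a b hab => hj (congrArg Subtype.val hab), fun z => by
      obtain ⟨a, ha⟩ := (hc z.1).1 z.2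
      exact ⟨a, Subtype.ext ha⟩⟩
  rw [eq_comm]
  apply Perm.sign_eq_sign_of_equiv _ _ e
  intro a
  apply Subtype.ext
  exact (h a).symm

theorem sgnOn_one {c : Finset Ω} : sgnOn c (1 : Perm Ω) = 1 := by
  rw [sgnOn_of_inv Inv.one]
  exact Perm.sign_one

theorem sgnOn_congr {c : Finset Ω} {g h : Perm Ω} (hgh : ∀ z ∈ c, g z = h z)
    (hg : Inv c g) : sgnOn c g = sgnOn c h := by
  have hh : Inv c h := by
    apply inv_of_forall
    intro z hz
    rw [← hgh z hz]
    exact (hg z).2 hz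
  rw [sgnOn_of_inv hg, sgnOn_of_inv hh]
  congr 1
  ext1 z
  exact Subtype.ext (hgh z.1 z.2)

theorem sgnOn_of_fix {c : Finset Ω} {g : Perm Ω} (h : ∀ z ∈ c, g z = z) : sgnOn c g = 1 := by
  rw [← sgnOn_one (c := c)]
  apply sgnOn_congr (by simpa using h)
  apply inv_of_forall
  intro z hz
  rw [h z hz]
  exact hz

theorem sgnOn_inv {c : Finset Ω} {g : Perm Ω} (hg : Inv c g) : sgnOn c g⁻¹ = sgnOn c g := by
  have h := sgnOn_mul hg hg.inv
  rw [mul_inv_cancel, sgnOn_one] at h
  have := Int.units_mul_self (sgnOn c g)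
  calc sgnOn c g⁻¹ = sgnOn c g * (sgnOn c g * sgnOn c g⁻¹) := by
        rw [← mul_assoc, this, one_mul]
    _ = sgnOn c g := by rw [← h, mul_one]

theorem sgnOn_union {c d : Finset Ω} {g : Perm Ω} (hcd : Disjoint c d) (hc : Inv c g)
    (hd : Inv d g) : sgnOn (c ∪ d) g = sgnOn c g * sgnOn d g := by
  rw [sgnOn_of_inv hc, sgnOn_of_inv hd, ← Perm.sign_sumCongr]
  apply sgnOn_eq_sign (fun s : {z // z ∈ c} ⊕ {z // z ∈ d} => Sum.elim Subtype.val Subtype.val s)
  · rintro (a | a) (b | b) h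
    · exact congrArg Sum.inl (Subtype.ext h)
    · exact absurd h (fun h => Finset.disjoint_left.1 hcd a.2 (by
        have : a.1 = b.1 := h
        rw [this]; exact b.2))
    · exact absurd h (fun h => Finset.disjoint_left.1 hcd b.2 (by
        have : a.1 = b.1 := h
        rw [← this]; exact a.2))
    · exact congrArg Sum.inr (Subtype.ext h)
  · intro z
    rw [Finset.mem_union]
    constructor
    · rintro (h | h)
      · exact ⟨Sum.inl ⟨z, h⟩, rfl⟩
      · exact ⟨Sum.inr ⟨z, h⟩, rfl⟩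
    · rintro ⟨(a | a), rfl⟩
      · exact Or.inl a.2
      · exact Or.inr a.2
  · rintro (a | a) <;> rfl

/-- If `g` fixes the points of `c` outside the invariant subset `d`, the signs agree. -/
theorem sgnOn_subset {c d : Finset Ω} {g : Perm Ω} (hdc : d ⊆ c) (hd : Inv d g)
    (h : ∀ z ∈ c, z ∉ d → g z = z) : sgnOn c g = sgnOn d g := by
  have h1 : Inv (c \ d) g := by
    apply inv_of_forall
    intro z hz
    rw [Finset.mem_sdiff] at hz
    rw [h z hz.1 hz.2, Finset.mem_sdiff]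
    exact hz
  have h2 : sgnOn (c \ d) g = 1 := by
    apply sgnOn_of_fix
    intro z hz
    rw [Finset.mem_sdiff] at hz
    exact h z hz.1 hz.2
  have h3 : d ∪ (c \ d) = c := Finset.union_sdiff_of_subset hdc
  rw [← h3, sgnOn_union Finset.disjoint_sdiff hd h1, h2, mul_one]

theorem inv_biUnion {β : Type*} [DecidableEq β] {s : Finset β} {c : β → Finset Ω}
    {g : Perm Ω} (h : ∀ b ∈ s, Inv (c b) g) : Inv (s.biUnion c) g := by
  intro z
  simp only [Finset.mem_biUnion]
  constructor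
  · rintro ⟨b, hb, hz⟩
    exact ⟨b, hb, (h b hb z).1 hz⟩
  · rintro ⟨b, hb, hz⟩
    exact ⟨b, hb, (h b hb z).2 hz⟩

theorem sgnOn_biUnion {β : Type*} [DecidableEq β] (s : Finset β) (c : β → Finset Ω)
    (g : Perm Ω) (h : ∀ b ∈ s, Inv (c b) g)
    (hd : ∀ b ∈ s, ∀ b' ∈ s, b ≠ b' → Disjoint (c b) (c b')) :
    sgnOn (s.biUnion c) g = ∏ b ∈ s, sgnOn (c b) g := by
  induction s using Finset.induction_on with
  | empty =>
    rw [Finset.biUnion_empty, Finset.prod_empty]
    exact sgnOn_of_fix (by simp)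
  | insert b s hb ih =>
    rw [Finset.biUnion_insert, Finset.prod_insert hb, sgnOn_union, ih]
    · exact fun b' hb' => h b' (Finset.mem_insert_of_mem hb')
    · exact fun b1 h1 b2 h2 => hd b1 (Finset.mem_insert_of_mem h1) b2 (Finset.mem_insert_of_mem h2)
    · rw [Finset.disjoint_biUnion_right]
      intro b' hb'
      exact hd b (Finset.mem_insert_self _ _) b' (Finset.mem_insert_of_mem hb')
        (fun h => hb (h ▸ hb'))
    · exact h b (Finset.mem_insert_self _ _)
    · exact inv_biUnion fun b' hb' => h b' (Finset.mem_insert_of_mem hb')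

/-- Translation (or any injection commuting with the action) does not change the sign. -/
theorem sgnOn_image {Ω' : Type*} [DecidableEq Ω'] {c : Finset Ω} {c' : Finset Ω'} {g : Perm Ω}
    {g' : Perm Ω'} (τ : Ω → Ω') (hτ : Set.InjOn τ c) (hc : c' = c.image τ) (hg : Inv c g)
    (h : ∀ z ∈ c, g' (τ z) = τ (g z)) : sgnOn c' g' = sgnOn c g := by
  rw [sgnOn_of_inv hg]
  apply sgnOn_eq_sign (fun z : {z // z ∈ c} => τ z.1)
  · intro a b hab
    exact Subtype.ext (hτ a.2 b.2 hab)
  · intro z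
    rw [hc, Finset.mem_image]
    constructor
    · rintro ⟨a, ha, rfl⟩
      exact ⟨⟨a, ha⟩, rfl⟩
    · rintro ⟨a, rfl⟩
      exact ⟨a.1, a.2, rfl⟩
  · intro a
    exact h a.1 a.2

/-- `g` acts on `c` as the transposition of two distinct points. -/
theorem sgnOn_swap {c : Finset Ω} {g : Perm Ω} {z w : Ω} (hz : z ∈ c) (hw : w ∈ c) (hzw : z ≠ w)
    (h : ∀ y ∈ c, g y = swap z w y) : sgnOn c g = -1 := by
  have hne : (⟨z, hz⟩ : {y // y ∈ c}) ≠ ⟨w, hw⟩ := fun h => hzw (congrArg Subtype.val h)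
  rw [← Perm.sign_swap hne]
  apply sgnOn_eq_sign (fun y : {y // y ∈ c} => y.1) Subtype.val_injective (fun y => by simp)
  intro y
  rw [h y.1 y.2]
  rw [swap_apply_def, swap_apply_def]
  simp only [Subtype.ext_iff]
  split_ifs <;> rfl

end Vale.Agent.P196.Cut
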