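import Vale.Agent.P196.Cut.Defs
import Vale.Agent.P196.Cut.Sgn

/-!
# Membership criterion for the group of a cell system
-/

set_option linter.unusedSectionVars false

noncomputable section

namespace Vale.Agent.P196.Cut

open Equiv Vale.Agent.P196.S0

variable {N : ℤ} {J Θ : Type} {ι : Type} [Fintype ι] [DecidableEq ι]

namespace CS

/-- The sites of the cell `(p, j)`. -/
def cell (C : CS N J Θ) (ι : Type) [Fintype ι] [DecidableEq ι] (p : Z2) (j : J) :
    Finset (Z2 × ι) :=
  ((C.D j).image (fun v => N • p + v)) ×ˢ Finset.univ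

theorem mem_cell (C : CS N J Θ) {p : Z2} {j : J} {z : Z2 × ι} :
    z ∈ C.cell ι p j ↔ C.anch z.1 = p ∧ C.lab z.1 = some j := by
  simp only [cell, Finset.mem_product, Finset.mem_image, Finset.mem_univ, and_true]
  constructor
  · rintro ⟨v, hv, hz⟩
    rw [← hz]
    exact ⟨C.anch_zero_add hv p, C.lab_zero_add hv p⟩
  · rintro ⟨h1, h2⟩
    refine ⟨z.1 - N • p, ?_, by abel⟩
    rw [C.mem_D]
    have h3 : z.1 - N • p = z.1 + N • (-p) := by rw [smul_neg, sub_eq_add_neg]
    rw [h3, C.anch_add, C.lab_add, h1, h2]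
    simp

/-- The simultaneous action of one permutation for every label and type. -/
structure Acts (C : CS N J Θ) (g : Perm (Z2 × ι)) : Prop where
  none : ∀ z : Z2 × ι, C.lab z.1 = none → g z = z
  cell : ∀ (z : Z2 × ι) (j : J), C.lab z.1 = some j →
    C.anch (g z).1 = C.anch z.1 ∧ C.lab (g z).1 = some j
  equi : ∀ (z : Z2 × ι) (j : J) (k : Z2), C.lab z.1 = some j →
    C.typ j (C.anch z.1 + k) = C.typ j (C.anch z.1) →
    g (z.1 + N • k, z.2) = ((g z).1 + N • k, (g z).2)

theorem Acts.inv_cell {C : CS N J Θ} {g : Perm (Z2 × ι)} (hg : C.Acts g) (p : Z2) (j : J) :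
    Inv (C.cell ι p j) g := by
  apply inv_of_forall
  intro z hz
  rw [C.mem_cell] at hz ⊢
  rw [← hz.1]
  exact hg.cell z j hz.2

theorem Acts.one (C : CS N J Θ) : C.Acts (1 : Perm (Z2 × ι)) where
  none _ _ := rfl
  cell _ _ h := ⟨rfl, h⟩
  equi _ _ _ _ _ := rfl

theorem Acts.mul {C : CS N J Θ} {g h : Perm (Z2 × ι)} (hg : C.Acts g) (hh : C.Acts h) :
    C.Acts (g * h) where
  none z hz := by rw [Perm.mul_apply, hh.none z hz, hg.none z hz]
  cell z j hz := by
    obtain ⟨h1, h2⟩ := hh.cell z j hz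
    obtain ⟨h3, h4⟩ := hg.cell (h z) j h2
    exact ⟨h3.trans h1, h4⟩
  equi z j k hz ht := by
    obtain ⟨h1, h2⟩ := hh.cell z j hz
    rw [Perm.mul_apply, Perm.mul_apply, hh.equi z j k hz ht]
    exact hg.equi (h z) j k h2 (by rw [h1]; exact ht)

theorem Acts.inv {C : CS N J Θ} {g : Perm (Z2 × ι)} (hg : C.Acts g) : C.Acts g⁻¹ := by
  have hcell : ∀ (z : Z2 × ι) (j : J), C.lab z.1 = some j →
      C.anch (g⁻¹ z).1 = C.anch z.1 ∧ C.lab (g⁻¹ z).1 = some j := by
    intro z j hz
    have h1 : z ∈ C.cell ι (C.anch z.1) j := C.mem_cell.2 ⟨rfl, hz⟩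
    have h2 := ((hg.inv_cell (C.anch z.1) j).inv z).2 h1
    exact C.mem_cell.1 h2
  refine ⟨?_, hcell, ?_⟩
  · intro z hz
    rw [Perm.inv_eq_iff_eq]
    exact (hg.none z hz).symm
  · intro z j k hz ht
    rw [Perm.inv_eq_iff_eq]
    obtain ⟨h1, h2⟩ := hcell z j hz
    have := hg.equi (g⁻¹ z) j k h2 (by rw [h1]; exact ht)
    rw [this]
    simp

/-- Elements of `X j θ` act. -/
theorem blow_acts (C : CS N J Θ) (j : J) (θ : Θ) (σ : Perm (C.D j × ι)) :
    C.Acts (blow (C.E j θ) (C.D j) (C.small j θ) σ) := by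
  -- explicit formulas
  have hin : ∀ (p : Z2) (v : C.D j) (f : ι), C.typ j p = θ →
      blow (C.E j θ) (C.D j) (C.small j θ) σ (N • p + (v : Z2), f) =
        (N • p + ((σ (v, f)).1 : Z2), (σ (v, f)).2) := by
    intro p v f hp
    exact blow_apply (C.small j θ) σ (x := N • p) ⟨p, rfl, hp⟩ (v, f)
  have hout : ∀ z : Z2 × ι, ¬ (C.lab z.1 = some j ∧ C.typ j (C.anch z.1) = θ) →
      blow (C.E j θ) (C.D j) (C.small j θ) σ z = z := by
    rintro ⟨u, f⟩ hz
    apply blow_eq_self
    rintro ⟨v, hv⟩ ⟨p, hp, ht⟩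
    exfalso
    apply hz
    have hu : u = N • p + v := by rw [← hp]; abel
    refine ⟨?_, ?_⟩
    · simp only [hu]
      exact C.lab_zero_add hv p
    · simp only [hu]
      rw [C.anch_zero_add hv p]
      exact ht
  have hdec : ∀ z : Z2 × ι, C.lab z.1 = some j → ∃ v : C.D j, z.1 = N • C.anch z.1 + (v : Z2) := by
    intro z hz
    have h1 : z ∈ C.cell ι (C.anch z.1) j := C.mem_cell.2 ⟨rfl, hz⟩
    simp only [cell, Finset.mem_product, Finset.mem_image, Finset.mem_univ, and_true] at h1
    obtain ⟨v, hv, h2⟩ := h1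
    exact ⟨⟨v, hv⟩, h2.symm⟩
  refine ⟨?_, ?_, ?_⟩
  · intro z hz
    apply hout
    rintro ⟨h1, _⟩
    rw [hz] at h1
    exact absurd h1 (by simp)
  · intro z j' hz
    by_cases h : C.lab z.1 = some j ∧ C.typ j (C.anch z.1) = θ
    · obtain ⟨h1, h2⟩ := h
      obtain ⟨v, hv⟩ := hdec z h1
      have hjj : j' = j := by
        rw [h1] at hz
        exact (Option.some.inj hz).symm
      subst hjj
      have hz' : z = (N • C.anch z.1 + (v : Z2), z.2) := Prod.ext hv rfl
      have h3 := hin (C.anch z.1) v z.2 h2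
      rw [← hz'] at h3
      rw [h3]
      exact ⟨C.anch_zero_add (σ (v, z.2)).1.2 _, C.lab_zero_add (σ (v, z.2)).1.2 _⟩
    · rw [hout z h]
      exact ⟨rfl, hz⟩
  · intro z j' k hz ht
    by_cases h : C.lab z.1 = some j ∧ C.typ j (C.anch z.1) = θ
    · obtain ⟨h1, h2⟩ := h
      obtain ⟨v, hv⟩ := hdec z h1
      have hjj : j' = j := by
        rw [h1] at hz
        exact (Option.some.inj hz).symm
      subst hjj
      have hz' : z = (N • C.anch z.1 + (v : Z2), z.2) := Prod.ext hv rfl
      have h3 := hin (C.anch z.1) v z.2 h2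
      rw [← hz'] at h3
      rw [h3]
      have h4 := hin (C.anch z.1 + k) v z.2 (by rw [ht]; exact h2)
      have h5 : (z.1 + N • k, z.2) = (N • (C.anch z.1 + k) + (v : Z2), z.2) := by
        refine Prod.ext ?_ rfl
        change z.1 + N • k = N • (C.anch z.1 + k) + (v : Z2)
        conv_lhs => rw [hv]
        rw [smul_add]; abel
      rw [h5, h4]
      refine Prod.ext ?_ rfl
      change N • (C.anch z.1 + k) + _ = N • C.anch z.1 + _ + N • k
      rw [smul_add]; abel
    · rw [hout z h]
      apply hout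
      simp only
      rw [C.lab_add, C.anch_add]
      rintro ⟨h1, h2⟩
      apply h
      refine ⟨h1, ?_⟩
      have hjj : j' = j := by
        rw [h1] at hz
        exact (Option.some.inj hz).symm
      subst hjj
      rw [← ht]
      exact h2

/-- `blow` is even on every cell. -/
theorem blow_sgn (C : CS N J Θ) (j : J) (θ : Θ) (σ : Perm (C.D j × ι)) (p : Z2) (j' : J) :
    sgnOn (C.cell ι p j') (blow (C.E j θ) (C.D j) (C.small j θ) σ) =
      open Classical in if j' = j ∧ C.typ j p = θ then Perm.sign σ else 1 := by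
  classical
  split_ifs with h
  · obtain ⟨rfl, h2⟩ := h
    apply sgnOn_eq_sign (fun s : C.D j' × ι => (N • p + (s.1 : Z2), s.2))
    · rintro ⟨v, f⟩ ⟨v', f'⟩ h
      simp only [Prod.mk.injEq, add_right_inj] at h
      exact Prod.ext (Subtype.ext h.1) h.2
    · intro z
      simp only [cell, Finset.mem_product, Finset.mem_image, Finset.mem_univ, and_true]
      constructor
      · rintro ⟨v, hv, h⟩
        exact ⟨(⟨v, hv⟩, z.2), Prod.ext h rfl⟩
      · rintro ⟨⟨v, f⟩, rfl⟩
        exact ⟨v, v.2, rfl⟩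
    · intro s
      exact blow_apply (C.small j' θ) σ (x := N • p) ⟨p, rfl, h2⟩ s
  · apply sgnOn_of_fix
    rintro ⟨u, f⟩ hz
    rw [C.mem_cell] at hz
    apply blow_eq_self
    rintro ⟨v, hv⟩ ⟨q, hq, ht⟩
    exfalso
    apply h
    have hu : u = N • q + v := by rw [← hq]; abel
    have h1 : C.anch u = q := by rw [hu]; exact C.anch_zero_add hv q
    have h2 : C.lab u = some j := by rw [hu]; exact C.lab_zero_add hv q
    have h3 : C.anch u = p := hz.1
    have h4 : C.lab u = some j' := hz.2
    rw [h2] at h4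
    refine ⟨(Option.some.inj h4).symm, ?_⟩
    rw [← h3, h1]
    exact ht

/-- The properties characterising the group. -/
structure IsIn (C : CS N J Θ) (g : Perm (Z2 × ι)) : Prop where
  acts : C.Acts g
  even : ∀ p j, sgnOn (C.cell ι p j) g = 1

theorem isIn_of_mem (C : CS N J Θ) {g : Perm (Z2 × ι)} (hg : g ∈ C.G ι) : C.IsIn g := by
  classical
  unfold G at hg
  induction hg using Subgroup.iSup_induction' with
  | hp q g hg =>
    obtain ⟨σ, hσ, rfl⟩ := hg
    refine ⟨C.blow_acts _ _ σ, fun p j => ?_⟩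
    rw [C.blow_sgn]
    split_ifs
    · exact Perm.mem_alternatingGroup.1 hσ
    · rfl
  | h1 => exact ⟨Acts.one C, fun p j => sgnOn_one⟩
  | hmul g h _ _ hg hh =>
    refine ⟨hg.acts.mul hh.acts, fun p j => ?_⟩
    rw [sgnOn_mul (hg.acts.inv_cell p j) (hh.acts.inv_cell p j), hg.even, hh.even, mul_one]

theorem exists_dec (C : CS N J Θ) {j : J} {z : Z2 × ι} (hz : C.lab z.1 = some j) :
    ∃ v : C.D j, z = (N • C.anch z.1 + (v : Z2), z.2) := by
  have h1 : z ∈ C.cell ι (C.anch z.1) j := C.mem_cell.2 ⟨rfl, hz⟩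
  simp only [cell, Finset.mem_product, Finset.mem_image, Finset.mem_univ, and_true] at h1
  obtain ⟨v, hv, h2⟩ := h1
  exact ⟨⟨v, hv⟩, Prod.ext h2.symm rfl⟩

theorem mem_cell_iff (C : CS N J Θ) (p : Z2) (j : J) (z : Z2 × ι) :
    z ∈ C.cell ι p j ↔ ∃ s : C.D j × ι, (N • p + (s.1 : Z2), s.2) = z := by
  simp only [cell, Finset.mem_product, Finset.mem_image, Finset.mem_univ, and_true]
  constructor
  · rintro ⟨v, hv, h⟩
    exact ⟨(⟨v, hv⟩, z.2), Prod.ext h rfl⟩
  · rintro ⟨⟨v, f⟩, rfl⟩
    exact ⟨v, v.2, rfl⟩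

/-- The restriction of `g` to a cell. -/
theorem exists_sigma (C : CS N J Θ) {g : Perm (Z2 × ι)} (hg : C.Acts g) (p : Z2) (j : J) :
    ∃ σ : Perm (C.D j × ι), (∀ s, g (N • p + (s.1 : Z2), s.2) =
      (N • p + ((σ s).1 : Z2), (σ s).2)) ∧ Perm.sign σ = sgnOn (C.cell ι p j) g := by
  have hinj : Function.Injective
      (fun s : C.D j × ι => ((N • p + (s.1 : Z2), s.2) : Z2 × ι)) := by
    rintro ⟨v, f⟩ ⟨v', f'⟩ h
    simp only [Prod.mk.injEq, add_right_inj] at h
    exact Prod.ext (Subtype.ext h.1) h.2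
  have hinv := hg.inv_cell (ι := ι) p j
  have h1 : ∀ s : C.D j × ι, ∃ t : C.D j × ι,
      (N • p + (t.1 : Z2), t.2) = g (N • p + (s.1 : Z2), s.2) := fun s =>
    (C.mem_cell_iff p j _).1 ((hinv _).2 ((C.mem_cell_iff p j _).2 ⟨s, rfl⟩))
  choose r hr using h1
  have hrinj : Function.Injective r := by
    intro s s' h
    have h2 := hr s
    rw [h, hr s'] at h2
    exact (hinj (g.injective h2)).symm
  let σ : Perm (C.D j × ι) := Equiv.ofBijective r (Finite.injective_iff_bijective.1 hrinj)
  refine ⟨σ, fun s => (hr s).symm, ?_⟩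
  rw [eq_comm]
  exact sgnOn_eq_sign (fun s : C.D j × ι => ((N • p + (s.1 : Z2), s.2) : Z2 × ι)) hinj
    (C.mem_cell_iff p j) σ (fun s => (hr s).symm)

theorem X_le_G (C : CS N J Θ) (j : J) (θ : Θ) : C.X ι j θ ≤ C.G ι :=
  le_iSup (fun q : J × Θ => C.X ι q.1 q.2) (j, θ)

theorem mem_of_isIn [Finite J] [Finite Θ] (C : CS N J Θ) {g : Perm (Z2 × ι)}
    (hg : C.IsIn g) : g ∈ C.G ι := by
  classical
  have := Fintype.ofFinite J
  have := Fintype.ofFinite Θ
  have key : ∀ (S : Finset (J × Θ)) (g : Perm (Z2 × ι)), C.IsIn g →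
      (∀ (z : Z2 × ι) (j : J), C.lab z.1 = some j → (j, C.typ j (C.anch z.1)) ∉ S → g z = z) →
      g ∈ C.G ι := by
    intro S
    induction S using Finset.induction_on with
    | empty =>
      intro g hg h
      have : g = 1 := by
        ext1 z
        cases hz : C.lab z.1 with
        | none => exact hg.acts.none z hz
        | some j => exact h z j hz (by simp)
      rw [this]
      exact one_mem _
    | insert q S hq ih =>
      intro g hg h
      obtain ⟨j0, θ0⟩ := q
      by_cases hE : ∃ p, C.typ j0 p = θ0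
      · obtain ⟨p0, hp0⟩ := hE
        obtain ⟨σ, hσ, hs⟩ := C.exists_sigma hg.acts p0 j0
        rw [hg.even] at hs
        set b := blow (C.E j0 θ0) (C.D j0) (C.small j0 θ0) σ with hb
        have hbG : b ∈ C.G ι := C.X_le_G j0 θ0 ⟨σ, Perm.mem_alternatingGroup.2 hs, rfl⟩
        have hbIn : C.IsIn b := C.isIn_of_mem hbG
        -- `b` agrees with `g` on the cells of type `(j0, θ0)`
        have h1 : ∀ z : Z2 × ι, C.lab z.1 = some j0 → C.typ j0 (C.anch z.1) = θ0 →
            b z = g z := by
          intro z hz ht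
          obtain ⟨v, hv⟩ := C.exists_dec hz
          have h2 := blow_apply (C.small j0 θ0) σ (x := N • C.anch z.1) ⟨_, rfl, ht⟩ (v, z.2)
          simp only at h2
          rw [← hv, ← hb] at h2
          rw [h2]
          have h3 := hg.acts.equi (N • p0 + (v : Z2), z.2) j0 (C.anch z.1 - p0)
            (C.lab_zero_add v.2 p0) (by
              simp only
              rw [C.anch_zero_add v.2 p0]
              rw [show p0 + (C.anch z.1 - p0) = C.anch z.1 by abel, ht, hp0])
          have h4 : N • p0 + (v : Z2) + N • (C.anch z.1 - p0) = N • C.anch z.1 + (v : Z2) := by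
            rw [smul_sub]; abel
          simp only at h3
          rw [h4, ← hv, hσ (v, z.2)] at h3
          rw [h3]
          refine Prod.ext ?_ rfl
          change N • C.anch z.1 + ((σ (v, z.2)).1 : Z2) =
            N • p0 + ((σ (v, z.2)).1 : Z2) + N • (C.anch z.1 - p0)
          rw [smul_sub]; abel
        have h2 : g * b⁻¹ ∈ C.G ι := by
          apply ih
          · refine ⟨hg.acts.mul hbIn.acts.inv, fun p j => ?_⟩
            rw [sgnOn_mul (hg.acts.inv_cell p j) (hbIn.acts.inv_cell p j).inv,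
              sgnOn_inv (hbIn.acts.inv_cell p j), hg.even, hbIn.even, mul_one]
          · intro z j hz hnot
            rw [Perm.mul_apply]
            obtain ⟨h3, h4⟩ := hbIn.acts.inv.cell z j hz
            by_cases hq' : (j, C.typ j (C.anch z.1)) = (j0, θ0)
            · obtain ⟨hj, ht⟩ := Prod.mk.inj hq'
              subst hj
              rw [← h1 (b⁻¹ z) h4 (by rw [h3]; exact ht)]
              simp
            · have h5 : b z = z := by
                have h6 : b⁻¹ z = z := by
                  rw [Perm.inv_eq_iff_eq]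
                  symm
                  obtain ⟨v, hv⟩ := C.exists_dec hz
                  rw [hv]
                  apply blow_eq_self
                  rintro ⟨v', hv'⟩ ⟨p, hp, hpt⟩
                  exfalso
                  apply hq'
                  have hu : N • C.anch z.1 + (v : Z2) = N • p + v' := by rw [← hp]; abel
                  have h7 : C.anch (N • C.anch z.1 + (v : Z2)) = p := by
                    rw [hu]; exact C.anch_zero_add hv' p
                  have h8 : C.lab (N • C.anch z.1 + (v : Z2)) = some j0 := by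
                    rw [hu]; exact C.lab_zero_add hv' p
                  rw [C.anch_zero_add v.2] at h7
                  rw [C.lab_zero_add v.2] at h8
                  have h9 := Option.some.inj h8
                  subst h9
                  rw [h7, hpt]
                rw [← h6]
                simp
                exact h6.symm
              have h6 : b⁻¹ z = z := by
                rw [Perm.inv_eq_iff_eq]; exact h5.symm
              rw [h6]
              exact h z j hz (by
                rw [Finset.mem_insert]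
                push Not
                exact ⟨hq', hnot⟩)
        have h3 : g = g * b⁻¹ * b := by group
        rw [h3]
        exact mul_mem h2 hbG
      · apply ih g hg
        intro z j hz hnot
        apply h z j hz
        rw [Finset.mem_insert]
        push Not
        refine ⟨?_, hnot⟩
        intro heq
        obtain ⟨rfl, h2⟩ := Prod.mk.inj heq
        exact hE ⟨_, h2⟩
  exact key Finset.univ g hg (fun z j _ h => absurd (Finset.mem_univ _) h)

theorem mem_G_iff [Finite J] [Finite Θ] (C : CS N J Θ) {g : Perm (Z2 × ι)} :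
    g ∈ C.G ι ↔ C.IsIn g := ⟨C.isIn_of_mem, C.mem_of_isIn⟩

end CS

end Vale.Agent.P196.Cut
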