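import Vale.Agent.P196.S0.Simple

/-!
# P196, cutting: cell systems and the concrete groups at scale `N = 2 * M`
-/

noncomputable section

namespace Vale.Agent.P196.Cut

open Equiv Vale.Agent.P196.S0

/-! ### Cell systems -/

/-- A cell system at scale `N`: the cell of `u` is the pair `(anch u, lab u)`; points with
`lab u = none` are in no cell; `typ j p` is the type of the cell `(p, j)`; `D j` is the shape of
the cell `(0, j)`. -/
structure CS (N : ℤ) (J Θ : Type) where
  anch : Z2 → Z2
  lab : Z2 → Option J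
  typ : J → Z2 → Θ
  D : J → Finset Z2
  anch_add : ∀ u k, anch (u + N • k) = anch u + k
  lab_add : ∀ u k, lab (u + N • k) = lab u
  mem_D : ∀ j u, u ∈ D j ↔ anch u = 0 ∧ lab u = some j

namespace CS

variable {N : ℤ} {J Θ : Type}

/-- The anchor points of the cells of label `j` and type `θ`. -/
def E (C : CS N J Θ) (j : J) (θ : Θ) : Set Z2 := {x | ∃ p : Z2, x = N • p ∧ C.typ j p = θ}

theorem anch_zero_add (C : CS N J Θ) {j : J} {v : Z2} (hv : v ∈ C.D j) (p : Z2) :
    C.anch (N • p + v) = p := by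
  rw [add_comm, C.anch_add, ((C.mem_D j v).1 hv).1, zero_add]

theorem lab_zero_add (C : CS N J Θ) {j : J} {v : Z2} (hv : v ∈ C.D j) (p : Z2) :
    C.lab (N • p + v) = some j := by
  rw [add_comm, C.lab_add, ((C.mem_D j v).1 hv).2]

theorem small (C : CS N J Θ) (j : J) (θ : Θ) : Small (C.E j θ) (C.D j) := by
  rintro v hv v' hv' _ ⟨p, rfl, _⟩ _ ⟨p', rfl, _⟩ h
  have h1 := C.anch_zero_add hv p
  have h2 := C.anch_zero_add hv' p'
  rw [h] at h1
  rw [h1] at h2
  subst h2
  simpa using h

/-- The alternating group acting simultaneously on all cells of label `j` and type `θ`. -/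
def X (C : CS N J Θ) (ι : Type) [Fintype ι] [DecidableEq ι] (j : J) (θ : Θ) :
    Subgroup (Perm (Z2 × ι)) :=
  (alternatingGroup (C.D j × ι)).map (blow (C.E j θ) (C.D j) (C.small j θ))

/-- The group of a cell system. -/
def G (C : CS N J Θ) (ι : Type) [Fintype ι] [DecidableEq ι] :
    Subgroup (Perm (Z2 × ι)) :=
  ⨆ q : J × Θ, C.X ι q.1 q.2

end CS

/-! ### Geometry at scale `2 * M` -/

section geo

variable (M : ℤ)

/-- index of the face interval `[2Mk, 2M(k+1))` containing `x` -/
def fI (x : ℤ) : ℤ := x / (2 * M)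

/-- index of the nearest vertex: the `k` with `x ∈ [2Mk - M, 2Mk + M)` -/
def vI (x : ℤ) : ℤ := (x + M) / (2 * M)

/-- distance to the nearest line (symmetric under `x ↦ -1 - x`) -/
def dI (x : ℤ) : ℤ := if x % (2 * M) < M then x % (2 * M) else 2 * M - 1 - x % (2 * M)

/-- `true` iff `u` is on the side of a horizontal edge (closer to the horizontal line). -/
def sH (u : Z2) : Bool := decide (dI M u.2 ≤ dI M u.1)

/-- `true` iff `x` is in the second half of its face interval (`vI = fI + 1`), else `vI = fI`. -/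
def hf (x : ℤ) : Bool := decide (M ≤ x % (2 * M))

end geo

section geolem

variable {M : ℤ}

theorem fI_add (hM : 0 < M) (x k : ℤ) : fI M (x + 2 * M * k) = fI M x + k := by
  unfold fI
  rw [Int.add_mul_ediv_left _ _ (by omega)]

theorem vI_add (hM : 0 < M) (x k : ℤ) : vI M (x + 2 * M * k) = vI M x + k := by
  unfold vI
  rw [add_right_comm, Int.add_mul_ediv_left _ _ (by omega)]

theorem dI_add (x k : ℤ) : dI M (x + 2 * M * k) = dI M x := by
  simp [dI]

theorem hf_add (x k : ℤ) : hf M (x + 2 * M * k) = hf M x := by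
  simp [hf]

theorem sH_add (u k : Z2) : sH M (u + (2 * M) • k) = sH M u := by
  simp [sH, dI_add]

theorem vI_eq (hM : 0 < M) (x : ℤ) : vI M x = fI M x + (if hf M x then 1 else 0) := by
  have h1 := Int.emod_add_mul_ediv x (2 * M)
  have h2 := Int.emod_nonneg x (show (2 * M) ≠ 0 by omega)
  have h3 := Int.emod_lt_of_pos x (show 0 < 2 * M by omega)
  unfold vI fI hf
  by_cases h : M ≤ x % (2 * M)
  · simp only [h, decide_true, if_true]
    rw [Int.ediv_eq_iff_of_pos (by omega)]
    constructor <;> nlinarith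
  · simp only [h, decide_false]
    rw [if_neg (by simp)]
    rw [Int.ediv_eq_iff_of_pos (by omega)]
    constructor <;> nlinarith

end geolem

/-- Coarse types: vertices `ty`, horizontal edges `th p` (from `p` to `p + e₁`), vertical edges
`tv p` (from `p` to `p + e₂`), faces `tf p` (lower left corner `p`). -/
structure TySys (T Th Tv Tf : Type) where
  ty : Z2 → T
  th : Z2 → Th
  tv : Z2 → Tv
  tf : Z2 → Tf
  ty_th : ∀ p p', ty p = ty p' → th p = th p'
  ty_th' : ∀ p p', ty p = ty p' → th (p - (1, 0)) = th (p' - (1, 0))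
  ty_tv : ∀ p p', ty p = ty p' → tv p = tv p'
  ty_tv' : ∀ p p', ty p = ty p' → tv (p - (0, 1)) = tv (p' - (0, 1))
  th_tf : ∀ p p', th p = th p' → tf p = tf p'
  th_tf' : ∀ p p', th p = th p' → tf (p - (0, 1)) = tf (p' - (0, 1))
  tv_tf : ∀ p p', tv p = tv p' → tf p = tf p'
  tv_tf' : ∀ p p', tv p = tv p' → tf (p - (1, 0)) = tf (p' - (1, 0))

/-! ### The concrete cell systems at scale `2 * M` -/

section box

/-- A cell system from its cell functions, with a bound on the cells at the origin. -/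
def CS.ofBox {N : ℤ} {J Θ : Type} [DecidableEq J] (B : ℤ) (anch : Z2 → Z2) (lab : Z2 → Option J)
    (typ : J → Z2 → Θ) (h1 : ∀ u k, anch (u + N • k) = anch u + k)
    (h2 : ∀ u k, lab (u + N • k) = lab u)
    (hB : ∀ u, anch u = 0 → u ∈ Finset.Icc (-B) B ×ˢ Finset.Icc (-B) B) : CS N J Θ where
  anch := anch
  lab := lab
  typ := typ
  D j := (Finset.Icc (-B) B ×ˢ Finset.Icc (-B) B).filter (fun u => anch u = 0 ∧ lab u = some j)
  anch_add := h1
  lab_add := h2
  mem_D j u := by
    rw [Finset.mem_filter]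
    exact ⟨fun h => h.2, fun h => ⟨hB u h.1, h⟩⟩

end box

section systems

variable (M : ℤ)

/-- anchor of the vertex cells -/
def aV (u : Z2) : Z2 := (vI M u.1, vI M u.2)

/-- anchor of the face cells -/
def aF (u : Z2) : Z2 := (fI M u.1, fI M u.2)

/-- anchor of the rhombi -/
def aR (u : Z2) : Z2 := if sH M u then (fI M u.1, vI M u.2) else (vI M u.1, fI M u.2)

/-- distance to the line on which the rhombus of `u` sits -/
def hR (u : Z2) : ℤ := if sH M u then dI M u.2 else dI M u.1

variable {M}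

theorem aV_add (hM : 0 < M) (u k : Z2) : aV M (u + (2 * M) • k) = aV M u + k := by
  refine Prod.ext ?_ ?_
  · simpa [aV] using vI_add hM u.1 k.1
  · simpa [aV] using vI_add hM u.2 k.2

theorem aF_add (hM : 0 < M) (u k : Z2) : aF M (u + (2 * M) • k) = aF M u + k := by
  refine Prod.ext ?_ ?_
  · simpa [aF] using fI_add hM u.1 k.1
  · simpa [aF] using fI_add hM u.2 k.2

theorem aR_add (hM : 0 < M) (u k : Z2) : aR M (u + (2 * M) • k) = aR M u + k := by
  unfold aR
  rw [sH_add]
  split_ifs
  · refine Prod.ext ?_ ?_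
    · simpa using fI_add hM u.1 k.1
    · simpa using vI_add hM u.2 k.2
  · refine Prod.ext ?_ ?_
    · simpa using vI_add hM u.1 k.1
    · simpa using fI_add hM u.2 k.2

theorem hR_add (u k : Z2) : hR M (u + (2 * M) • k) = hR M u := by
  unfold hR
  rw [sH_add]
  have h1 : dI M (u + (2 * M) • k).2 = dI M u.2 := by simpa using dI_add u.2 k.2
  have h2 : dI M (u + (2 * M) • k).1 = dI M u.1 := by simpa using dI_add u.1 k.1
  rw [h1, h2]

theorem hf_add1 (u k : Z2) : hf M (u + (2 * M) • k).1 = hf M u.1 := by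
  simpa using hf_add u.1 k.1

theorem hf_add2 (u k : Z2) : hf M (u + (2 * M) • k).2 = hf M u.2 := by
  simpa using hf_add u.2 k.2

theorem bound_of_fI (hM : 0 < M) {x : ℤ} (h : fI M x = 0) : -(2 * M) ≤ x ∧ x ≤ 2 * M := by
  unfold fI at h
  have h1 := Int.emod_add_mul_ediv x (2 * M)
  have h2 := Int.emod_nonneg x (show (2 * M) ≠ 0 by omega)
  have h3 := Int.emod_lt_of_pos x (show 0 < 2 * M by omega)
  rw [h] at h1
  omega

theorem bound_of_vI (hM : 0 < M) {x : ℤ} (h : vI M x = 0) : -(2 * M) ≤ x ∧ x ≤ 2 * M := by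
  unfold vI at h
  have h1 := Int.emod_add_mul_ediv (x + M) (2 * M)
  have h2 := Int.emod_nonneg (x + M) (show (2 * M) ≠ 0 by omega)
  have h3 := Int.emod_lt_of_pos (x + M) (show 0 < 2 * M by omega)
  rw [h] at h1
  omega

theorem box_aV (hM : 0 < M) (u : Z2) (h : aV M u = 0) :
    u ∈ Finset.Icc (-(2 * M)) (2 * M) ×ˢ Finset.Icc (-(2 * M)) (2 * M) := by
  have h1 := bound_of_vI hM (congrArg Prod.fst h : vI M u.1 = 0)
  have h2 := bound_of_vI hM (congrArg Prod.snd h : vI M u.2 = 0)
  simp only [Finset.mem_product, Finset.mem_Icc]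
  omega

theorem box_aF (hM : 0 < M) (u : Z2) (h : aF M u = 0) :
    u ∈ Finset.Icc (-(2 * M)) (2 * M) ×ˢ Finset.Icc (-(2 * M)) (2 * M) := by
  have h1 := bound_of_fI hM (congrArg Prod.fst h : fI M u.1 = 0)
  have h2 := bound_of_fI hM (congrArg Prod.snd h : fI M u.2 = 0)
  simp only [Finset.mem_product, Finset.mem_Icc]
  omega

theorem box_aR (hM : 0 < M) (u : Z2) (h : aR M u = 0) :
    u ∈ Finset.Icc (-(2 * M)) (2 * M) ×ˢ Finset.Icc (-(2 * M)) (2 * M) := by
  unfold aR at h
  split_ifs at h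
  · have h1 := bound_of_fI hM (congrArg Prod.fst h : fI M u.1 = 0)
    have h2 := bound_of_vI hM (congrArg Prod.snd h : vI M u.2 = 0)
    simp only [Finset.mem_product, Finset.mem_Icc]
    omega
  · have h1 := bound_of_vI hM (congrArg Prod.fst h : vI M u.1 = 0)
    have h2 := bound_of_fI hM (congrArg Prod.snd h : fI M u.2 = 0)
    simp only [Finset.mem_product, Finset.mem_Icc]
    omega

variable {T Th Tv Tf : Type}

/-- vertex cells -/
def Vsys (hM : 0 < M) (Y : TySys T Th Tv Tf) : CS (2 * M) Unit T :=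
  CS.ofBox (2 * M) (aV M) (fun _ => some ()) (fun _ => Y.ty) (aV_add hM) (fun _ _ => rfl)
    (box_aV hM)

/-- face cells -/
def Fsys (hM : 0 < M) (Y : TySys T Th Tv Tf) : CS (2 * M) Unit Tf :=
  CS.ofBox (2 * M) (aF M) (fun _ => some ()) (fun _ => Y.tf) (aF_add hM) (fun _ _ => rfl)
    (box_aF hM)

/-- the type of an edge: `true` horizontal, `false` vertical -/
def TySys.te (Y : TySys T Th Tv Tf) (h : Bool) (p : Z2) : Th ⊕ Tv :=
  if h then Sum.inl (Y.th p) else Sum.inr (Y.tv p)

/-- rhombi -/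
def Rsys (hM : 0 < M) (Y : TySys T Th Tv Tf) : CS (2 * M) Bool (Th ⊕ Tv) :=
  CS.ofBox (2 * M) (aR M) (fun u => some (sH M u)) (fun h => Y.te h) (aR_add hM)
    (fun u k => by rw [sH_add]) (box_aR hM)

/-- the parts of the rhombi at distance `< s` of their edge -/
def RSsys (hM : 0 < M) (s : ℤ) (Y : TySys T Th Tv Tf) : CS (2 * M) Bool (Th ⊕ Tv) :=
  CS.ofBox (2 * M) (aR M) (fun u => if hR M u < s then some (sH M u) else none)
    (fun h => Y.te h) (aR_add hM) (fun u k => by rw [sH_add, hR_add]) (box_aR hM)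

/-- sectors: the intersections of a rhombus and a vertex cell; second component of the label:
`true` iff it is at the second end of the edge -/
def Ssys (hM : 0 < M) (Y : TySys T Th Tv Tf) : CS (2 * M) (Bool × Bool) (Th ⊕ Tv) :=
  CS.ofBox (2 * M) (aR M)
    (fun u => some (sH M u, if sH M u then hf M u.1 else hf M u.2)) (fun h => Y.te h.1)
    (aR_add hM) (fun u k => by rw [sH_add, hf_add1, hf_add2]) (box_aR hM)

/-- triangles: the intersections of a rhombus and a face -/
def Qsys (hM : 0 < M) (Y : TySys T Th Tv Tf) : CS (2 * M) (Bool × Bool) Tf :=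
  CS.ofBox (2 * M) (aF M)
    (fun u => some (sH M u, if sH M u then hf M u.2 else hf M u.1)) (fun _ => Y.tf)
    (aF_add hM) (fun u k => by rw [sH_add, hf_add1, hf_add2]) (box_aF hM)

/-- quadrants: the intersections of a vertex cell and a face -/
def Zsys (hM : 0 < M) (Y : TySys T Th Tv Tf) : CS (2 * M) (Bool × Bool) Tf :=
  CS.ofBox (2 * M) (aF M) (fun u => some (hf M u.1, hf M u.2)) (fun _ => Y.tf)
    (aF_add hM) (fun u k => by rw [hf_add1, hf_add2]) (box_aF hM)

/-- the positions of the fixed transpositions, one in each of the eight octants of a face -/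
def isPos (M : ℤ) (u : Z2) : Prop :=
  (dI M u.1 = M - 1 ∧ dI M u.2 = M / 2) ∨ (dI M u.1 = M / 2 ∧ dI M u.2 = M - 1)

/-- a set of positions determined by the octant and the vertex type -/
def posSet (M : ℤ) (Y : TySys T Th Tv Tf) (P : Set (Bool × Bool × Bool × T)) : Set Z2 :=
  {u | isPos M u ∧ (hf M u.1, hf M u.2, sH M u, Y.ty (aV M u)) ∈ P}

/-- the products of fixed transpositions (exchange of the floors `a` and `b`) -/
def Sig {ι : Type} [DecidableEq ι] (M : ℤ) (Y : TySys T Th Tv Tf) (a b : ι) :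
    Set (Perm (Z2 × ι)) :=
  {g | ∃ P, g = eP (posSet M Y P) (swap a b)}

end systems

end Vale.Agent.P196.Cut
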