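import Vale.Agent.P196.Cut.StmtG
import Vale.Agent.P196.Cut.Corr

/-!
# The factorisation theorem from its lemmas
-/

set_option linter.unusedSectionVars false

noncomputable section

namespace Vale.Agent.P196.Cut

open Equiv Vale.Agent.P196.S0

variable {M : ℤ} {T Th Tv Tf : Type} {ι : Type} [Fintype ι] [DecidableEq ι]

/-- designated octants for the sectors -/
def desV (o : Bool × Bool × Bool) : Prop := (o.2.2 = true → o.2.1 = false) ∧
  (o.2.2 = false → o.1 = false)

/-- designated octants for the triangles -/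
def desF (o : Bool × Bool × Bool) : Prop := (o.2.2 = true → o.1 = false) ∧
  (o.2.2 = false → o.2.1 = false)

theorem aV_eq (hM : 0 < M) (u : Z2) :
    aV M u = aF M u + (if hf M u.1 then 1 else 0, if hf M u.2 then 1 else 0) :=
  Prod.ext (vI_eq hM u.1) (vI_eq hM u.2)

theorem S_hex (hM : 4 ≤ M) (h0 : 0 < M) (Y : TySys T Th Tv Tf) (p : Z2) (j : Bool × Bool) :
    (Ssys h0 Y).D j = ∅ ∨ ∃ u, isPos M u ∧ desV (oct M u) ∧ (Ssys h0 Y).anch u = p ∧
      (Ssys h0 Y).lab u = some j := by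
  right
  obtain ⟨h, t⟩ := j
  cases h
  · obtain ⟨u, h1, h2, h3⟩ := exists_pos hM p (false, t, false)
    refine ⟨u, h1, ?_, ?_, ?_⟩
    · rw [h2]; exact ⟨by simp, by simp⟩
    · unfold oct at h2
      simp only [Prod.mk.injEq] at h2
      change aR M u = p
      unfold aR
      rw [h2.2.2, if_neg (by simp), vI_eq h0, h2.1, if_neg (by simp), add_zero]
      exact h3
    · unfold oct at h2
      simp only [Prod.mk.injEq] at h2
      change (some (sH M u, if sH M u then hf M u.1 else hf M u.2) : Option (Bool × Bool)) = _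
      rw [h2.2.2, h2.2.1]
      simp
  · obtain ⟨u, h1, h2, h3⟩ := exists_pos hM p (t, false, true)
    refine ⟨u, h1, ?_, ?_, ?_⟩
    · rw [h2]; exact ⟨by simp, by simp⟩
    · unfold oct at h2
      simp only [Prod.mk.injEq] at h2
      change aR M u = p
      unfold aR
      rw [h2.2.2, if_pos rfl, vI_eq h0, h2.2.1, if_neg (by simp), add_zero]
      exact h3
    · unfold oct at h2
      simp only [Prod.mk.injEq] at h2
      change (some (sH M u, if sH M u then hf M u.1 else hf M u.2) : Option (Bool × Bool)) = _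
      rw [h2.2.2, h2.1]
      simp

theorem S_huniq (hM : 4 ≤ M) (h0 : 0 < M) (Y : TySys T Th Tv Tf) (u u' : Z2) (h1 : isPos M u)
    (h2 : isPos M u') (h3 : desV (oct M u)) (h4 : desV (oct M u'))
    (h5 : (Ssys h0 Y).anch u = (Ssys h0 Y).anch u') (h6 : (Ssys h0 Y).lab u = (Ssys h0 Y).lab u')
    (_ : (Ssys h0 Y).lab u ≠ none) : u = u' := by
  have h5' : aR M u = aR M u' := h5
  have h6' : (some (sH M u, if sH M u then hf M u.1 else hf M u.2) : Option (Bool × Bool)) =
    some (sH M u', if sH M u' then hf M u'.1 else hf M u'.2) := h6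
  simp only [Option.some.injEq, Prod.mk.injEq] at h6'
  obtain ⟨e1, e2⟩ := h6'
  unfold aR at h5'
  unfold desV oct at h3 h4
  rw [← e1] at h5' h4 e2
  cases hs : sH M u
  · rw [hs] at h5' h3 h4 e2
    simp only [Bool.false_eq_true, if_false, Prod.mk.injEq] at h5' e2
    have a1 : hf M u.1 = false := h3.2 rfl
    have a2 : hf M u'.1 = false := h4.2 rfl
    apply pos_unique hM h1 h2
    · unfold oct
      rw [a1, a2, e2, ← e1]
    · refine Prod.ext ?_ h5'.2
      exact fI_eq_of h0 h5'.1 (a1.trans a2.symm)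
  · rw [hs] at h5' h3 h4 e2
    simp only [if_true, Prod.mk.injEq] at h5' e2
    have a1 : hf M u.2 = false := h3.1 rfl
    have a2 : hf M u'.2 = false := h4.1 rfl
    apply pos_unique hM h1 h2
    · unfold oct
      rw [a1, a2, e2, ← e1]
    · refine Prod.ext h5'.1 ?_
      exact fI_eq_of h0 h5'.2 (a1.trans a2.symm)

theorem sub_add_comm' (a b c : Z2) : a - b + c = a + c - b := by abel

theorem S_hty (h0 : 0 < M) (Y : TySys T Th Tv Tf) (u k : Z2) (j : Bool × Bool)
    (hj : (Ssys h0 Y).lab u = some j) (ht : Y.ty (aV M u + k) = Y.ty (aV M u)) :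
    (Ssys h0 Y).typ j ((Ssys h0 Y).anch u + k) = (Ssys h0 Y).typ j ((Ssys h0 Y).anch u) := by
  have hj' : (some (sH M u, if sH M u then hf M u.1 else hf M u.2) : Option (Bool × Bool)) =
    some j := hj
  have hj1 : sH M u = j.1 := congrArg Prod.fst (Option.some.inj hj')
  change Y.te j.1 (aR M u + k) = Y.te j.1 (aR M u)
  rw [← hj1]
  unfold TySys.te aR
  cases hs : sH M u
  · simp only [Bool.false_eq_true, if_false, Sum.inr.injEq]
    cases hh : hf M u.2
    · have : ((vI M u.1, fI M u.2) : Z2) = aV M u :=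
        Prod.ext rfl (by change fI M u.2 = vI M u.2; rw [vI_eq h0, hh]; simp)
      rw [this]
      exact Y.ty_tv _ _ ht
    · have : ((vI M u.1, fI M u.2) : Z2) = aV M u - (0, 1) :=
        Prod.ext (by change vI M u.1 = vI M u.1 - 0; ring)
          (by change fI M u.2 = vI M u.2 - 1; rw [vI_eq h0, hh]; simp)
      rw [this, sub_add_comm']
      exact Y.ty_tv' _ _ ht
  · simp only [if_true, Sum.inl.injEq]
    cases hh : hf M u.1
    · have : ((fI M u.1, vI M u.2) : Z2) = aV M u :=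
        Prod.ext (by change fI M u.1 = vI M u.1; rw [vI_eq h0, hh]; simp) rfl
      rw [this]
      exact Y.ty_th _ _ ht
    · have : ((fI M u.1, vI M u.2) : Z2) = aV M u - (1, 0) :=
        Prod.ext (by change fI M u.1 = vI M u.1 - 1; rw [vI_eq h0, hh]; simp)
          (by change vI M u.2 = vI M u.2 - 0; ring)
      rw [this, sub_add_comm']
      exact Y.ty_th' _ _ ht

theorem Q_hex (hM : 4 ≤ M) (h0 : 0 < M) (Y : TySys T Th Tv Tf) (p : Z2) (j : Bool × Bool) :
    (Qsys h0 Y).D j = ∅ ∨ ∃ u, isPos M u ∧ desF (oct M u) ∧ (Qsys h0 Y).anch u = p ∧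
      (Qsys h0 Y).lab u = some j := by
  right
  obtain ⟨h, t⟩ := j
  cases h
  · obtain ⟨u, h1, h2, h3⟩ := exists_pos hM p (t, false, false)
    refine ⟨u, h1, ?_, h3, ?_⟩
    · rw [h2]; exact ⟨by simp, by simp⟩
    · unfold oct at h2
      simp only [Prod.mk.injEq] at h2
      change (some (sH M u, if sH M u then hf M u.2 else hf M u.1) : Option (Bool × Bool)) = _
      rw [h2.2.2, h2.1]
      simp
  · obtain ⟨u, h1, h2, h3⟩ := exists_pos hM p (false, t, true)
    refine ⟨u, h1, ?_, h3, ?_⟩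
    · rw [h2]; exact ⟨by simp, by simp⟩
    · unfold oct at h2
      simp only [Prod.mk.injEq] at h2
      change (some (sH M u, if sH M u then hf M u.2 else hf M u.1) : Option (Bool × Bool)) = _
      rw [h2.2.2, h2.2.1]
      simp

theorem Q_huniq (hM : 4 ≤ M) (h0 : 0 < M) (Y : TySys T Th Tv Tf) (u u' : Z2) (h1 : isPos M u)
    (h2 : isPos M u') (h3 : desF (oct M u)) (h4 : desF (oct M u'))
    (h5 : (Qsys h0 Y).anch u = (Qsys h0 Y).anch u') (h6 : (Qsys h0 Y).lab u = (Qsys h0 Y).lab u')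
    (_ : (Qsys h0 Y).lab u ≠ none) : u = u' := by
  have h5' : aF M u = aF M u' := h5
  have h6' : (some (sH M u, if sH M u then hf M u.2 else hf M u.1) : Option (Bool × Bool)) =
    some (sH M u', if sH M u' then hf M u'.2 else hf M u'.1) := h6
  simp only [Option.some.injEq, Prod.mk.injEq] at h6'
  obtain ⟨e1, e2⟩ := h6'
  unfold desF oct at h3 h4
  rw [← e1] at h4 e2
  cases hs : sH M u
  · rw [hs] at h3 h4 e2
    simp only [Bool.false_eq_true, if_false] at e2
    have a1 : hf M u.2 = false := h3.2 rfl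
    have a2 : hf M u'.2 = false := h4.2 rfl
    apply pos_unique hM h1 h2 _ h5'
    unfold oct
    rw [a1, a2, e2, ← e1]
  · rw [hs] at h3 h4 e2
    simp only [if_true] at e2
    have a1 : hf M u.1 = false := h3.1 rfl
    have a2 : hf M u'.1 = false := h4.1 rfl
    apply pos_unique hM h1 h2 _ h5'
    unfold oct
    rw [a1, a2, e2, ← e1]

/-- the vertex type determines the types of the adjacent faces -/
theorem Q_hty (h0 : 0 < M) (Y : TySys T Th Tv Tf) (u k : Z2)
    (ht : Y.ty (aV M u + k) = Y.ty (aV M u)) : Y.tf (aF M u + k) = Y.tf (aF M u) := by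
  have hV := aV_eq h0 u
  cases h1 : hf M u.1 <;> cases h2 : hf M u.2
  · have : aF M u = aV M u := by rw [hV, h1, h2]; simp
    rw [this]
    exact Y.th_tf _ _ (Y.ty_th _ _ ht)
  · have : aF M u = aV M u - (0, 1) := by rw [hV, h1, h2]; simp
    rw [this, sub_add_comm']
    exact Y.th_tf' _ _ (Y.ty_th _ _ ht)
  · have : aF M u = aV M u - (1, 0) := by rw [hV, h1, h2]; simp
    rw [this, sub_add_comm']
    exact Y.tv_tf' _ _ (Y.ty_tv _ _ ht)
  · have : aF M u = aV M u - (1, 0) - (0, 1) := by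
      rw [hV, h1, h2]
      refine Prod.ext ?_ ?_
      · change (aF M u).1 = (aF M u).1 + (if true = true then 1 else 0) - 1 - 0
        rw [if_pos rfl]; ring
      · change (aF M u).2 = (aF M u).2 + (if true = true then 1 else 0) - 0 - 1
        rw [if_pos rfl]; ring
    rw [this, sub_add_comm', sub_add_comm']
    exact Y.th_tf' _ _ (Y.ty_th' _ _ ht)

theorem posSet_add (h0 : 0 < M) (Y : TySys T Th Tv Tf) (P : Set (Bool × Bool × Bool × T))
    (u k : Z2) (ht : Y.ty (aV M u + k) = Y.ty (aV M u)) :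
    u + (2 * M) • k ∈ posSet M Y P ↔ u ∈ posSet M Y P := by
  change (isPos M (u + (2 * M) • k) ∧ (hf M (u + (2 * M) • k).1, hf M (u + (2 * M) • k).2,
    sH M (u + (2 * M) • k), Y.ty (aV M (u + (2 * M) • k))) ∈ P) ↔ (isPos M u ∧
    (hf M u.1, hf M u.2, sH M u, Y.ty (aV M u)) ∈ P)
  rw [isPos_smul_add, hf_add1, hf_add2, sH_add, aV_add h0, ht]

theorem eP_swap_inv (E : Set Z2) (a b : ι) : (eP E (swap a b))⁻¹ = eP E (swap a b) := by
  rw [← ePHom_apply, ← map_inv, swap_inv]

theorem fact_of (hB : StmtB) (hC : StmtC) (hE : StmtE) (hF : StmtF) : StmtFact := by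
  intro T Th Tv Tf _ _ _ _ ι _ _ M hM s r0 r1 d Y v e f a b hab t hcr
  have h4M : 4 ≤ M := by
    have := t.r1_M
    have := t.r0_r1
    have := t.s_r0
    have := t.d_nonneg
    have := t.s_pos
    omega
  have hsM : s ≤ M / 2 := by
    have := t.r1_M
    have := t.r0_r1
    have := t.s_r0
    have := t.d_nonneg
    have := t.s_pos
    omega
  obtain ⟨ZV, ZF, SV, SR, QR, QF, RSR, VOV, hcomm⟩ := hB T Th Tv Tf ι M hM s Y
  obtain ⟨-, -, -, hsg⟩ := hC T Th Tv Tf ι M hM Y a b hab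
  have hcr' := hE T Th Tv Tf ι M hM s r0 r1 d Y v e f t hcr
  obtain ⟨κ, hκ, hκ1, hκ2⟩ := hF T Th Tv Tf ι M hM s r0 r1 d Y v e f a b hab t hcr'
  have hU : Unc hM Y r0 r1 f κ := ⟨hκ, hκ1, hκ2⟩
  have hSa := hU.acts_kv t
  have hQa := hU.acts_fk t
  -- the sector side
  set v' : Perm (Z2 × ι) := κ⁻¹ * v with hv'
  have hv'V : v' ∈ (Vsys hM Y).G ι := mul_mem (inv_mem (ZV hκ)) t.hv
  obtain ⟨PV, hPV⟩ := corr_eq_posSet (C := Ssys hM Y) (g := v') (des := desV) h4M Y hSa
    (S_hty hM Y)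
  set sV : Perm (Z2 × ι) := eP (corr (Ssys hM Y) v' desV) (swap a b) with hsV
  have hsVa : (Ssys hM Y).Acts sV := corr_acts hSa (swap a b)
  have hsVs : ∀ p j, sgnOn ((Ssys hM Y).cell ι p j) sV = sgnOn ((Ssys hM Y).cell ι p j) v' := by
    intro p j
    apply corr_sgn _ (S_hex h4M hM Y) (S_huniq h4M hM Y)
    intro D
    rw [hPV]
    exact hsg PV D
  set u0 : Perm (Z2 × ι) := v' * sV⁻¹ with hu0
  have hu0S : u0 ∈ (Ssys hM Y).G ι := by
    apply CS.mem_of_isIn
    refine ⟨hSa.mul hsVa.inv, fun p j => ?_⟩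
    rw [sgnOn_mul (hSa.inv_cell p j) (hsVa.inv_cell p j).inv, sgnOn_inv (hsVa.inv_cell p j),
      hsVs, Int.units_mul_self]
  have hsVV : sV ∈ (Vsys hM Y).G ι := by
    have : sV = u0⁻¹ * v' := by rw [hu0]; group
    rw [this]
    exact mul_mem (inv_mem (SV hu0S)) hv'V
  have hsVO : sV ∈ (VOsys hM s Y).G ι := by
    apply CS.mem_of_isIn
    have hacts : (VOsys hM s Y).Acts sV := by
      apply eP_acts
      · intro u hu
        change (if hR M u < s then none else some ()) ≠ none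
        rw [isPos_hR h4M hu.1, if_neg (by omega)]
        simp
      · intro u k j _ ht
        rw [hPV]
        exact posSet_add hM Y PV u k ht
    refine ⟨hacts, fun p j => ?_⟩
    have h1 := ((Vsys hM Y).isIn_of_mem hsVV).even p ()
    rw [← h1]
    symm
    apply sgnOn_subset
    · intro z hz
      rw [CS.mem_cell] at hz ⊢
      exact ⟨hz.1, rfl⟩
    · exact hacts.inv_cell p j
    · intro z hz hz'
      rw [CS.mem_cell] at hz
      by_cases hl : (VOsys hM s Y).lab z.1 = none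
      · exact hacts.none z hl
      · exfalso
        apply hz'
        rw [CS.mem_cell]
        refine ⟨hz.1, ?_⟩
        cases hl' : (VOsys hM s Y).lab z.1 with
        | none => exact absurd hl' hl
        | some _ => rfl
  -- the triangle side
  set f' : Perm (Z2 × ι) := f * κ with hf'
  have hf'F : f' ∈ (Fsys hM Y).G ι := mul_mem t.hf (ZF hκ)
  obtain ⟨PF, hPF⟩ := corr_eq_posSet (C := Qsys hM Y) (g := f') (des := desF) h4M Y hQa
    (fun u k _ _ ht => Q_hty hM Y u k ht)
  set sF : Perm (Z2 × ι) := eP (corr (Qsys hM Y) f' desF) (swap a b) with hsF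
  have hsFa : (Qsys hM Y).Acts sF := corr_acts hQa (swap a b)
  have hsFs : ∀ p j, sgnOn ((Qsys hM Y).cell ι p j) sF = sgnOn ((Qsys hM Y).cell ι p j) f' := by
    intro p j
    apply corr_sgn _ (Q_hex h4M hM Y) (Q_huniq h4M hM Y)
    intro D
    rw [hPF]
    exact hsg PF D
  set q : Perm (Z2 × ι) := f'⁻¹ * sF⁻¹ with hq
  have hqQ : q ∈ (Qsys hM Y).G ι := by
    apply CS.mem_of_isIn
    refine ⟨hQa.inv.mul hsFa.inv, fun p j => ?_⟩
    rw [sgnOn_mul (hQa.inv_cell p j).inv (hsFa.inv_cell p j).inv, sgnOn_inv (hsFa.inv_cell p j),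
      sgnOn_inv (hQa.inv_cell p j), hsFs, Int.units_mul_self]
  have hsFF : sF ∈ (Fsys hM Y).G ι := by
    have : sF = q⁻¹ * f'⁻¹ := by rw [hq]; group
    rw [this]
    exact mul_mem (inv_mem (QF hqQ)) (inv_mem hf'F)
  -- the rhombus side
  have hprod : v' * e * f' = 1 := by
    rw [hv', hf']
    calc κ⁻¹ * v * e * (f * κ) = κ⁻¹ * (v * e * f) * κ := by group
      _ = 1 := by rw [t.prod]; group
  have hsVe : e * sV = sV * e := hcomm e t.he sV hsVO
  have hfin : u0 * e = q * (sF * sV⁻¹) := by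
    have h1 : v' * e = f'⁻¹ := by rw [eq_inv_iff_mul_eq_one]; exact hprod
    have h2 : sV⁻¹ * e = e * sV⁻¹ := by
      rw [inv_mul_eq_iff_eq_mul, ← mul_assoc, ← hsVe]; group
    calc u0 * e = v' * (sV⁻¹ * e) := by rw [hu0]; group
      _ = (v' * e) * sV⁻¹ := by rw [h2]; group
      _ = q * (sF * sV⁻¹) := by rw [h1, hq]; group
  refine ⟨κ, hκ, u0, hu0S, q, hqQ, sV, ⟨PV, ?_⟩, sF * sV⁻¹, ?_, sF, ⟨PF, ?_⟩, hsVO, ?_, hsFF,
    ?_, hfin, ?_⟩
  · rw [hsV, hPV]
  · rw [hsV, hsF, eP_swap_inv, hPV, hPF]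
    exact ⟨_, (hC T Th Tv Tf ι M hM Y a b hab).2.2.1 PF PV⟩
  · rw [hsF, hPF]
  · have : sF * sV⁻¹ = q⁻¹ * (u0 * e) := by rw [hfin]; group
    rw [this]
    exact mul_mem (inv_mem (QR hqQ)) (mul_mem (SR hu0S) (RSR t.he))
  · rw [hu0, inv_mul_cancel_right]
  · rw [hq, mul_inv_rev, inv_inv, inv_inv, inv_mul_cancel_left]

end Vale.Agent.P196.Cut
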