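import Vale.Agent.P196.Cut.Crit

/-!
# P196, cutting: statement of the factorisation theorem and of its lemmas
-/

set_option linter.unusedSectionVars false

noncomputable section

namespace Vale.Agent.P196.Cut

open Equiv Vale.Agent.P196.S0

variable {T Th Tv Tf : Type} {ι : Type} [Fintype ι] [DecidableEq ι]

/-- distance to the nearest vertex (in the symmetrised coordinates `dI`) -/
def mx (M : ℤ) (u : Z2) : ℤ := max (dI M u.1) (dI M u.2)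

/-- vertex cells minus the strips of width `s` -/
def VOsys {M : ℤ} (hM : 0 < M) (s : ℤ) (Y : TySys T Th Tv Tf) : CS (2 * M) Unit T :=
  CS.ofBox (2 * M) (aV M) (fun u => if hR M u < s then none else some ()) (fun _ => Y.ty)
    (aV_add hM) (fun u k => by rw [hR_add]) (box_aV hM)

/-- Data of a cut word: `v * e * f = 1`. -/
structure Tri {M : ℤ} (hM : 0 < M) (Y : TySys T Th Tv Tf) (s r0 r1 d : ℤ)
    (v e f : Perm (Z2 × ι)) : Prop where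
  d_nonneg : 0 ≤ d
  s_pos : 0 < s
  s_r0 : s + 4 * d + 4 ≤ r0
  r0_r1 : r0 ≤ r1
  r1_M : 4 * (r1 + s + 2 * d + 4) ≤ M
  hv : v ∈ (Vsys hM Y).G ι
  he : e ∈ (RSsys hM s Y).G ι
  hf : f ∈ (Fsys hM Y).G ι
  prod : v * e * f = 1
  v_far : ∀ z : Z2 × ι, r1 ≤ mx M z.1 → v z = z
  e_near : ∀ z : Z2 × ι, mx M z.1 < r0 → e z = z
  f_near : ∀ z : Z2 × ι, mx M z.1 < r0 → f z = z
  v_disp : ∀ z : Z2 × ι, |(v z).1.1 - z.1.1| ≤ d ∧ |(v z).1.2 - z.1.2| ≤ d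
  f_disp : ∀ z : Z2 × ι, |(f z).1.1 - z.1.1| ≤ d ∧ |(f z).1.2 - z.1.2| ≤ d

/-- net number of points of `c` sent from the side `H` to the other side -/
def crH (M : ℤ) (c : Finset (Z2 × ι)) (g : Perm (Z2 × ι)) : ℤ :=
  ((c.filter (fun z => sH M z.1 = true ∧ sH M (g z).1 = false)).card : ℤ) -
    ((c.filter (fun z => sH M z.1 = false ∧ sH M (g z).1 = true)).card : ℤ)

/-- (A) refinement of cell systems gives inclusion of groups -/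
def StmtA : Prop := ∀ (N : ℤ) (J Θ J' Θ' : Type) [Finite J] [Finite Θ] [Finite J'] [Finite Θ']
  (C : CS N J Θ) (C' : CS N J' Θ') (φ : J → J') (off : J → Z2),
  (∀ u j, C.lab u = some j → C'.lab u = some (φ j) ∧ C'.anch u = C.anch u + off j) →
  (∀ j p p', C'.typ (φ j) (p + off j) = C'.typ (φ j) (p' + off j) → C.typ j p = C.typ j p') →
  ∀ (ι : Type) [Fintype ι] [DecidableEq ι], C.G ι ≤ C'.G ι

/-- (B) the inclusions -/
def StmtB : Prop := ∀ (T Th Tv Tf : Type) [Finite T] [Finite Th] [Finite Tv] [Finite Tf]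
  (ι : Type) [Fintype ι] [DecidableEq ι] (M : ℤ) (hM : 0 < M) (s : ℤ) (Y : TySys T Th Tv Tf),
  (Zsys hM Y).G ι ≤ (Vsys hM Y).G ι ∧ (Zsys hM Y).G ι ≤ (Fsys hM Y).G ι ∧
  (Ssys hM Y).G ι ≤ (Vsys hM Y).G ι ∧ (Ssys hM Y).G ι ≤ (Rsys hM Y).G ι ∧
  (Qsys hM Y).G ι ≤ (Rsys hM Y).G ι ∧ (Qsys hM Y).G ι ≤ (Fsys hM Y).G ι ∧
  (RSsys hM s Y).G ι ≤ (Rsys hM Y).G ι ∧ (VOsys hM s Y).G ι ≤ (Vsys hM Y).G ι ∧
  (∀ g ∈ (RSsys hM s Y).G ι, ∀ h ∈ (VOsys hM s Y).G ι, g * h = h * g)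

/-- (C) `Sig`: finiteness, products, and the sign on a set of sites `D ×ˢ univ`. -/
def StmtC : Prop := ∀ (T Th Tv Tf : Type) [Finite T] (ι : Type) [Fintype ι] [DecidableEq ι]
  (M : ℤ) (_ : 0 < M) (Y : TySys T Th Tv Tf) (a b : ι), a ≠ b →
  (Sig (ι := ι) M Y a b).Finite ∧ (Sig (ι := ι) M Y a b).ncard ≤ 2 ^ (8 * Nat.card T) ∧
  (∀ P P' : Set (Bool × Bool × Bool × T),
    eP (posSet M Y P) (swap a b) * eP (posSet M Y P') (swap a b) =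
      eP (posSet M Y (symmDiff P P')) (swap a b)) ∧
  (∀ (P : Set (Bool × Bool × Bool × T)) (D : Finset Z2),
    sgnOn (D ×ˢ (Finset.univ : Finset ι)) (eP (posSet M Y P) (swap a b)) =
      (-1) ^ (open Classical in (D.filter (fun u => u ∈ posSet M Y P)).card))

/-- (E) conservation: zero flux at one quadrant gives zero flux at every quadrant -/
def StmtE : Prop := ∀ (T Th Tv Tf : Type) [Finite T] [Finite Th] [Finite Tv] [Finite Tf]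
  (ι : Type) [Fintype ι] [DecidableEq ι] (M : ℤ) (hM : 0 < M) (s r0 r1 d : ℤ)
  (Y : TySys T Th Tv Tf) (v e f : Perm (Z2 × ι)), Tri hM Y s r0 r1 d v e f →
  crH M ((Zsys hM Y).cell ι (0, 0) (false, false)) v = 0 →
  ∀ p j, crH M ((Zsys hM Y).cell ι p j) f = 0

/-- (F) uncrossing -/
def StmtF : Prop := ∀ (T Th Tv Tf : Type) [Finite T] [Finite Th] [Finite Tv] [Finite Tf]
  (ι : Type) [Fintype ι] [DecidableEq ι] (M : ℤ) (hM : 0 < M) (s r0 r1 d : ℤ)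
  (Y : TySys T Th Tv Tf) (v e f : Perm (Z2 × ι)) (a b : ι), a ≠ b → Tri hM Y s r0 r1 d v e f →
  (∀ p j, crH M ((Zsys hM Y).cell ι p j) f = 0) →
  ∃ κ ∈ (Zsys hM Y).G ι, (∀ z, sH M (f (κ z)).1 = sH M z.1) ∧
    ∀ z, κ z ≠ z → (mx M z.1 < r1 ∧ mx M (κ z).1 < r1 ∧ r0 ≤ mx M z.1 ∧ r0 ≤ mx M (κ z).1) ∨
      (isPos M z.1 ∧ (κ z).1 = z.1)

/-- (G) after uncrossing, `κ⁻¹ * v` preserves the sectors and `f * κ` the triangles -/
def StmtG : Prop := ∀ (T Th Tv Tf : Type) [Finite T] [Finite Th] [Finite Tv] [Finite Tf]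
  (ι : Type) [Fintype ι] [DecidableEq ι] (M : ℤ) (hM : 0 < M) (s r0 r1 d : ℤ)
  (Y : TySys T Th Tv Tf) (v e f κ : Perm (Z2 × ι)), Tri hM Y s r0 r1 d v e f →
  κ ∈ (Zsys hM Y).G ι → (∀ z, sH M (f (κ z)).1 = sH M z.1) →
  (∀ z, κ z ≠ z → (mx M z.1 < r1 ∧ mx M (κ z).1 < r1 ∧ r0 ≤ mx M z.1 ∧ r0 ≤ mx M (κ z).1) ∨
      (isPos M z.1 ∧ (κ z).1 = z.1)) →
  (Ssys hM Y).Acts (κ⁻¹ * v) ∧ (Qsys hM Y).Acts (f * κ)

/-- The factorisation theorem. -/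
def StmtFact : Prop := ∀ (T Th Tv Tf : Type) [Finite T] [Finite Th] [Finite Tv] [Finite Tf]
  (ι : Type) [Fintype ι] [DecidableEq ι] (M : ℤ) (hM : 0 < M) (s r0 r1 d : ℤ)
  (Y : TySys T Th Tv Tf) (v e f : Perm (Z2 × ι)) (a b : ι), a ≠ b → Tri hM Y s r0 r1 d v e f →
  crH M ((Zsys hM Y).cell ι (0, 0) (false, false)) v = 0 →
  ∃ κ ∈ (Zsys hM Y).G ι, ∃ u0 ∈ (Ssys hM Y).G ι, ∃ q ∈ (Qsys hM Y).G ι,
    ∃ sV ∈ Sig M Y a b, ∃ sR ∈ Sig M Y a b, ∃ sF ∈ Sig M Y a b,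
      sV ∈ (VOsys hM s Y).G ι ∧ sR ∈ (Rsys hM Y).G ι ∧ sF ∈ (Fsys hM Y).G ι ∧
      κ⁻¹ * v = u0 * sV ∧ u0 * e = q * sR ∧ f * κ = sF⁻¹ * q⁻¹

end Vale.Agent.P196.Cut
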