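import Vale.Agent.P196.Cut.FactDefs

/-!
# Geometry lemmas: `dI` is Lipschitz, lines and midlines are not crossed by short moves
-/

set_option linter.unusedSectionVars false

noncomputable section

namespace Vale.Agent.P196.Cut

open Equiv Vale.Agent.P196.S0

variable {M : ℤ}

theorem emod_facts (hM : 0 < M) (x : ℤ) :
    x = 2 * M * (x / (2 * M)) + x % (2 * M) ∧ 0 ≤ x % (2 * M) ∧ x % (2 * M) < 2 * M := by
  have h1 := Int.emod_add_mul_ediv x (2 * M)
  have h2 := Int.emod_nonneg x (show (2 * M) ≠ 0 by omega)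
  have h3 := Int.emod_lt_of_pos x (show 0 < 2 * M by omega)
  exact ⟨by omega, h2, h3⟩

theorem div_mod_unique (hM : 0 < M) {x q c : ℤ} (h : x = 2 * M * q + c) (h0 : 0 ≤ c)
    (h1 : c < 2 * M) : x / (2 * M) = q ∧ x % (2 * M) = c := by
  subst h
  constructor
  · rw [add_comm, Int.add_mul_ediv_left _ _ (by omega), Int.ediv_eq_zero_of_lt h0 h1, zero_add]
  · rw [add_comm, Int.add_mul_emod_self_left, Int.emod_eq_of_lt h0 h1]

theorem dI_nonneg (hM : 0 < M) (x : ℤ) : 0 ≤ dI M x := by
  obtain ⟨_, h2, h3⟩ := emod_facts hM x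
  unfold dI
  split_ifs <;> omega

theorem dI_lt (hM : 0 < M) (x : ℤ) : dI M x < M := by
  obtain ⟨_, h2, h3⟩ := emod_facts hM x
  unfold dI
  split_ifs <;> omega

theorem dI_step (hM : 0 < M) (x : ℤ) : dI M (x + 1) ≤ dI M x + 1 ∧ dI M x ≤ dI M (x + 1) + 1 := by
  obtain ⟨h1, h2, h3⟩ := emod_facts hM x
  by_cases h : x % (2 * M) + 1 < 2 * M
  · obtain ⟨_, h5⟩ := div_mod_unique hM (x := x + 1) (q := x / (2 * M)) (c := x % (2 * M) + 1)
      (by omega) (by omega) h
    unfold dI
    rw [h5]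
    split_ifs <;> omega
  · obtain ⟨_, h5⟩ := div_mod_unique hM (x := x + 1) (q := x / (2 * M) + 1) (c := 0)
      (by rw [mul_add]; omega) (by omega) (by omega)
    unfold dI
    rw [h5]
    split_ifs <;> omega

theorem dI_lip_nat (hM : 0 < M) (x : ℤ) (n : ℕ) :
    dI M (x + n) ≤ dI M x + n ∧ dI M x ≤ dI M (x + n) + n := by
  induction n with
  | zero => simp
  | succ n ih =>
    have := dI_step hM (x + n)
    push_cast
    rw [← add_assoc]
    omega

/-- `dI` is 1-Lipschitz. -/
theorem dI_lip (hM : 0 < M) {x y d : ℤ} (h : |y - x| ≤ d) :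
    dI M y ≤ dI M x + d ∧ dI M x ≤ dI M y + d := by
  rw [abs_le] at h
  rcases le_total x y with hxy | hxy
  · obtain ⟨n, hn⟩ := Int.eq_ofNat_of_zero_le (sub_nonneg.2 hxy)
    have hy : y = x + n := by omega
    have := dI_lip_nat hM x n
    rw [hy]
    omega
  · obtain ⟨n, hn⟩ := Int.eq_ofNat_of_zero_le (sub_nonneg.2 hxy)
    have hy : x = y + n := by omega
    have := dI_lip_nat hM y n
    rw [hy]
    omega

/-- A point at distance `> d` from the lines does not cross a line in a move of length `≤ d`. -/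
theorem fI_eq_of_lt (hM : 0 < M) {x y d : ℤ} (h : |y - x| ≤ d) (hd : d < dI M x) :
    fI M y = fI M x := by
  rw [abs_le] at h
  obtain ⟨h1, h2, h3⟩ := emod_facts hM x
  have h4 : d < x % (2 * M) ∧ d < 2 * M - 1 - x % (2 * M) ∨
      (d < x % (2 * M) ∧ d < 2 * M - 1 - x % (2 * M)) := by
    unfold dI at hd
    split_ifs at hd <;> omega
  obtain ⟨h5, _⟩ := div_mod_unique hM (x := y) (q := x / (2 * M)) (c := x % (2 * M) + (y - x))
    (by omega) (by omega) (by omega)
  exact h5

/-- A point far from the midlines does not cross a midline. -/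
theorem vI_eq_of_lt (hM : 0 < M) {x y d : ℤ} (h : |y - x| ≤ d) (hd : dI M x + d < M) :
    vI M y = vI M x := by
  rw [abs_le] at h
  obtain ⟨h1, h2, h3⟩ := emod_facts hM (x + M)
  obtain ⟨h1', h2', h3'⟩ := emod_facts hM x
  have h4 : d ≤ (x + M) % (2 * M) ∧ (x + M) % (2 * M) + d < 2 * M := by
    by_cases hc : x % (2 * M) < M
    · obtain ⟨_, h5⟩ := div_mod_unique hM (x := x + M) (q := x / (2 * M))
        (c := x % (2 * M) + M) (by omega) (by omega) (by omega)
      rw [dI, if_pos hc] at hd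
      rw [h5]
      omega
    · obtain ⟨_, h5⟩ := div_mod_unique hM (x := x + M) (q := x / (2 * M) + 1)
        (c := x % (2 * M) - M) (by rw [mul_add]; omega) (by omega) (by omega)
      rw [dI, if_neg hc] at hd
      rw [h5]
      omega
  obtain ⟨h5, _⟩ := div_mod_unique hM (x := y + M) (q := (x + M) / (2 * M))
    (c := (x + M) % (2 * M) + (y - x)) (by omega) (by omega) (by omega)
  exact h5

theorem sH_eq_true {u : Z2} : sH M u = true ↔ dI M u.2 ≤ dI M u.1 := by
  simp [sH]

theorem sH_eq_false {u : Z2} : sH M u = false ↔ dI M u.1 < dI M u.2 := by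
  simp [sH]

/-- `fI` and `vI` determine `hf`. -/
theorem hf_eq_of (hM : 0 < M) {x y : ℤ} (h1 : fI M y - fI M x = vI M y - vI M x) :
    hf M y = hf M x := by
  rw [vI_eq hM, vI_eq hM] at h1
  cases hx : hf M x <;> cases hy : hf M y <;> simp [hx, hy] at h1 ⊢

theorem vI_eq_of (hM : 0 < M) {x y : ℤ} (h1 : fI M y = fI M x) (h2 : hf M y = hf M x) :
    vI M y = vI M x := by
  rw [vI_eq hM, vI_eq hM, h1, h2]

theorem fI_eq_of (hM : 0 < M) {x y : ℤ} (h1 : vI M y = vI M x) (h2 : hf M y = hf M x) :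
    fI M y = fI M x := by
  rw [vI_eq hM, vI_eq hM, h2] at h1
  omega

section tri

variable {T Th Tv Tf : Type} [Finite T] [Finite Th] [Finite Tv] [Finite Tf]
  {ι : Type} [Fintype ι] [DecidableEq ι] {hM : 0 < M} {Y : TySys T Th Tv Tf} {s r0 r1 d : ℤ}
  {v e f : Perm (Z2 × ι)}

namespace Tri

theorem prod_apply (h : Tri hM Y s r0 r1 d v e f) (z : Z2 × ι) : v (e (f z)) = z := by
  have := congrArg (fun g : Perm (Z2 × ι) => g z) h.prod
  simpa using this

theorem f_eq (h : Tri hM Y s r0 r1 d v e f) (z : Z2 × ι) : f z = e⁻¹ (v⁻¹ z) := by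
  rw [Perm.eq_inv_iff_eq, Perm.eq_inv_iff_eq]
  exact h.prod_apply z

/-- `v` moves only points away from the vertices. -/
theorem v_near (h : Tri hM Y s r0 r1 d v e f) (z : Z2 × ι) (hz : mx M z.1 < r0) : v z = z := by
  have := h.prod_apply z
  rwa [h.f_near z hz, h.e_near z hz] at this

theorem v_acts (h : Tri hM Y s r0 r1 d v e f) : (Vsys hM Y).Acts v :=
  ((Vsys hM Y).isIn_of_mem h.hv).acts

theorem e_acts (h : Tri hM Y s r0 r1 d v e f) : (RSsys hM s Y).Acts e :=
  ((RSsys hM s Y).isIn_of_mem h.he).acts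

theorem f_acts (h : Tri hM Y s r0 r1 d v e f) : (Fsys hM Y).Acts f :=
  ((Fsys hM Y).isIn_of_mem h.hf).acts

theorem v_aV (h : Tri hM Y s r0 r1 d v e f) (z : Z2 × ι) : aV M (v z).1 = aV M z.1 :=
  (h.v_acts.cell z () rfl).1

theorem f_aF (h : Tri hM Y s r0 r1 d v e f) (z : Z2 × ι) : aF M (f z).1 = aF M z.1 :=
  (h.f_acts.cell z () rfl).1

end Tri

/-- elements of the strip group fix everything off the strips -/
theorem rs_fix {g : Perm (Z2 × ι)} (hg : (RSsys hM s Y).Acts g) (z : Z2 × ι)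
    (hz : s ≤ hR M z.1) : g z = z := by
  apply hg.none z
  change (if hR M z.1 < s then some (sH M z.1) else none) = none
  rw [if_neg (by omega)]

/-- elements of the strip group preserve the rhombi -/
theorem rs_cell {g : Perm (Z2 × ι)} (hg : (RSsys hM s Y).Acts g) (z : Z2 × ι) :
    aR M (g z).1 = aR M z.1 ∧ sH M (g z).1 = sH M z.1 := by
  by_cases hz : s ≤ hR M z.1
  · rw [rs_fix hg z hz]
    exact ⟨rfl, rfl⟩
  · have hlab : (RSsys hM s Y).lab z.1 = some (sH M z.1) := by
      change (if hR M z.1 < s then some (sH M z.1) else none) = _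
      rw [if_pos (by omega)]
    obtain ⟨h1, h2⟩ := hg.cell z _ hlab
    refine ⟨h1, ?_⟩
    have h3 : (if hR M (g z).1 < s then some (sH M (g z).1) else none) = some (sH M z.1) := h2
    split_ifs at h3
    exact Option.some.inj h3

/-- translation-equivariance of the elements of the strip group -/
theorem rs_equi {g : Perm (Z2 × ι)} (hg : (RSsys hM s Y).Acts g) (z : Z2 × ι) (k : Z2)
    (ht : Y.te (sH M z.1) (aR M z.1 + k) = Y.te (sH M z.1) (aR M z.1)) :
    g (z.1 + (2 * M) • k, z.2) = ((g z).1 + (2 * M) • k, (g z).2) := by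
  by_cases hz : s ≤ hR M z.1
  · rw [rs_fix hg z hz]
    apply rs_fix hg
    change s ≤ hR M (z.1 + (2 * M) • k)
    rw [hR_add]
    exact hz
  · have hlab : (RSsys hM s Y).lab z.1 = some (sH M z.1) := by
      change (if hR M z.1 < s then some (sH M z.1) else none) = _
      rw [if_pos (by omega)]
    exact hg.equi z _ k hlab ht

namespace Tri

theorem sH_f (h : Tri hM Y s r0 r1 d v e f) (z : Z2 × ι) :
    sH M (f z).1 = sH M (v⁻¹ z).1 := by
  rw [h.f_eq z]
  exact (rs_cell h.e_acts.inv (v⁻¹ z)).2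

theorem sH_f_v (h : Tri hM Y s r0 r1 d v e f) (z : Z2 × ι) :
    sH M (f (v z)).1 = sH M z.1 := by
  rw [h.sH_f]
  simp

theorem v_inv_far (h : Tri hM Y s r0 r1 d v e f) (z : Z2 × ι) (hz : r1 ≤ mx M z.1) :
    v⁻¹ z = z := by
  rw [Perm.inv_eq_iff_eq]
  exact (h.v_far z hz).symm

/-- far from the vertices `f = e⁻¹` -/
theorem f_far (h : Tri hM Y s r0 r1 d v e f) (z : Z2 × ι) (hz : r1 ≤ mx M z.1) :
    f z = e⁻¹ z := by
  rw [h.f_eq, h.v_inv_far z hz]

/-- `v` does not cross vertical lines on the side `H`. -/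
theorem v_fI1 (h : Tri hM Y s r0 r1 d v e f) (z : Z2 × ι) (hz : sH M z.1 = true) :
    fI M (v z).1.1 = fI M z.1.1 := by
  by_cases hm : mx M z.1 < r0
  · rw [h.v_near z hm]
  · apply fI_eq_of_lt hM (h.v_disp z).1
    rw [sH_eq_true] at hz
    unfold mx at hm
    rw [max_eq_left hz] at hm
    have := h.s_r0
    have := h.s_pos
    have := h.d_nonneg
    omega

/-- `v` does not cross horizontal lines on the side `V`. -/
theorem v_fI2 (h : Tri hM Y s r0 r1 d v e f) (z : Z2 × ι) (hz : sH M z.1 = false) :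
    fI M (v z).1.2 = fI M z.1.2 := by
  by_cases hm : mx M z.1 < r0
  · rw [h.v_near z hm]
  · apply fI_eq_of_lt hM (h.v_disp z).2
    rw [sH_eq_false] at hz
    unfold mx at hm
    rw [max_eq_right hz.le] at hm
    have := h.s_r0
    have := h.s_pos
    have := h.d_nonneg
    omega

/-- `f` does not cross horizontal midlines on the side `H`. -/
theorem f_vI2 (h : Tri hM Y s r0 r1 d v e f) (z : Z2 × ι) (hz : sH M z.1 = true) :
    vI M (f z).1.2 = vI M z.1.2 := by
  by_cases hm : mx M z.1 < r1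
  · apply vI_eq_of_lt hM (h.f_disp z).2
    have h1 : dI M z.1.2 ≤ mx M z.1 := le_max_right _ _
    have := h.r1_M
    have := h.s_pos
    have := h.d_nonneg
    omega
  · rw [h.f_far z (by omega)]
    obtain ⟨h1, h2⟩ := rs_cell h.e_acts.inv z
    unfold aR at h1
    rw [h2, if_pos hz, if_pos hz] at h1
    exact congrArg Prod.snd h1

/-- `f` does not cross vertical midlines on the side `V`. -/
theorem f_vI1 (h : Tri hM Y s r0 r1 d v e f) (z : Z2 × ι) (hz : sH M z.1 = false) :
    vI M (f z).1.1 = vI M z.1.1 := by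
  by_cases hm : mx M z.1 < r1
  · apply vI_eq_of_lt hM (h.f_disp z).1
    have h1 : dI M z.1.1 ≤ mx M z.1 := le_max_left _ _
    have := h.r1_M
    have := h.s_pos
    have := h.d_nonneg
    omega
  · rw [h.f_far z (by omega)]
    obtain ⟨h1, h2⟩ := rs_cell h.e_acts.inv z
    unfold aR at h1
    rw [h2, if_neg (by simp [hz]), if_neg (by simp [hz])] at h1
    exact congrArg Prod.fst h1

end Tri

end tri

end Vale.Agent.P196.Cut
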