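import Vale.Agent.P196.Cut.Crit

/-!
# Gluing permutations of the cells
-/

set_option linter.unusedSectionVars false

noncomputable section

namespace Vale.Agent.P196.Cut

open Equiv Vale.Agent.P196.S0

variable {N : ℤ} {J Θ : Type} {ι : Type} [Fintype ι] [DecidableEq ι]

namespace CS

theorem sub_mem_D (C : CS N J Θ) {j : J} {u : Z2} (hu : C.lab u = some j) :
    u - N • C.anch u ∈ C.D j := by
  rw [C.mem_D]
  have h3 : u - N • C.anch u = u + N • (-C.anch u) := by rw [smul_neg, sub_eq_add_neg]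
  rw [h3, C.anch_add, C.lab_add, hu]
  simp

/-- the map acting by `σ j θ` on every cell of label `j` and type `θ` -/
def gfun (C : CS N J Θ) (σ : (j : J) → Θ → Perm (C.D j × ι)) (z : Z2 × ι) : Z2 × ι :=
  open Classical in
  if h : ∃ j, C.lab z.1 = some j then
    (N • C.anch z.1 + ((σ h.choose (C.typ h.choose (C.anch z.1))
      (⟨z.1 - N • C.anch z.1, C.sub_mem_D h.choose_spec⟩, z.2)).1 : Z2),
      (σ h.choose (C.typ h.choose (C.anch z.1))
      (⟨z.1 - N • C.anch z.1, C.sub_mem_D h.choose_spec⟩, z.2)).2)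
  else z

theorem gfun_none (C : CS N J Θ) (σ : (j : J) → Θ → Perm (C.D j × ι)) (z : Z2 × ι)
    (h : C.lab z.1 = none) : C.gfun σ z = z := by
  unfold gfun
  rw [dif_neg]
  rintro ⟨j, hj⟩
  rw [h] at hj
  exact absurd hj (by simp)

theorem gfun_some (C : CS N J Θ) (σ : (j : J) → Θ → Perm (C.D j × ι)) (z : Z2 × ι) (j : J)
    (h : C.lab z.1 = some j) : C.gfun σ z = (N • C.anch z.1 + ((σ j (C.typ j (C.anch z.1))
      (⟨z.1 - N • C.anch z.1, C.sub_mem_D h⟩, z.2)).1 : Z2),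
      (σ j (C.typ j (C.anch z.1)) (⟨z.1 - N • C.anch z.1, C.sub_mem_D h⟩, z.2)).2) := by
  have hex : ∃ j, C.lab z.1 = some j := ⟨j, h⟩
  unfold gfun
  rw [dif_pos hex]
  have hj : hex.choose = j := by
    have h1 := hex.choose_spec
    exact Option.some.inj (h1.symm.trans h)
  subst hj
  rfl

theorem gfun_apply (C : CS N J Θ) (σ : (j : J) → Θ → Perm (C.D j × ι)) (p : Z2) (j : J)
    (s : C.D j × ι) : C.gfun σ (N • p + (s.1 : Z2), s.2) =
      (N • p + ((σ j (C.typ j p) s).1 : Z2), (σ j (C.typ j p) s).2) := by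
  obtain ⟨⟨v, hv⟩, f⟩ := s
  rw [C.gfun_some σ _ j (C.lab_zero_add hv p)]
  simp only [C.anch_zero_add hv p, add_sub_cancel_left]

/-- General gluing lemma. -/
theorem glue (C : CS N J Θ) (σ : (j : J) → Θ → Perm (C.D j × ι)) :
    ∃ g : Perm (Z2 × ι), C.Acts g ∧ (∀ (p : Z2) (j : J) (s : C.D j × ι),
      g (N • p + (s.1 : Z2), s.2) =
        (N • p + ((σ j (C.typ j p) s).1 : Z2), (σ j (C.typ j p) s).2)) ∧
      (∀ p j, sgnOn (C.cell ι p j) g = Perm.sign (σ j (C.typ j p))) := by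
  have key : ∀ (σ σ' : (j : J) → Θ → Perm (C.D j × ι)), (∀ j θ s, σ' j θ (σ j θ s) = s) →
      ∀ z, C.gfun σ' (C.gfun σ z) = z := by
    intro σ σ' h z
    cases hz : C.lab z.1 with
    | none => rw [C.gfun_none σ z hz, C.gfun_none σ' z hz]
    | some j =>
      obtain ⟨v, hv⟩ := C.exists_dec hz
      rw [hv, C.gfun_apply σ (C.anch z.1) j (v, z.2), C.gfun_apply σ' (C.anch z.1) j, h]
  let g : Perm (Z2 × ι) :=
    { toFun := C.gfun σ
      invFun := C.gfun (fun j θ => (σ j θ)⁻¹)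
      left_inv := key _ _ (fun j θ s => by simp)
      right_inv := key _ _ (fun j θ s => by simp) }
  have hg : ∀ z, g z = C.gfun σ z := fun _ => rfl
  refine ⟨g, ⟨?_, ?_, ?_⟩, fun p j s => C.gfun_apply σ p j s, ?_⟩
  · intro z hz
    rw [hg, C.gfun_none σ z hz]
  · intro z j hz
    obtain ⟨v, hv⟩ := C.exists_dec hz
    have h1 : g z = (N • C.anch z.1 + ((σ j (C.typ j (C.anch z.1)) (v, z.2)).1 : Z2),
        (σ j (C.typ j (C.anch z.1)) (v, z.2)).2) := by
      conv_lhs => rw [hv]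
      exact C.gfun_apply σ (C.anch z.1) j (v, z.2)
    rw [h1]
    exact ⟨C.anch_zero_add (Subtype.property _) _, C.lab_zero_add (Subtype.property _) _⟩
  · intro z j k hz ht
    obtain ⟨v, hv⟩ := C.exists_dec hz
    have h1 : g z = (N • C.anch z.1 + ((σ j (C.typ j (C.anch z.1)) (v, z.2)).1 : Z2),
        (σ j (C.typ j (C.anch z.1)) (v, z.2)).2) := by
      conv_lhs => rw [hv]
      exact C.gfun_apply σ (C.anch z.1) j (v, z.2)
    have h2 : (z.1 + N • k, z.2) = (N • (C.anch z.1 + k) + (v : Z2), z.2) := by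
      refine Prod.ext ?_ rfl
      change z.1 + N • k = N • (C.anch z.1 + k) + (v : Z2)
      have hz1 : z.1 = N • C.anch z.1 + (v : Z2) := congrArg Prod.fst hv
      rw [smul_add]
      nth_rewrite 1 [hz1]
      abel
    rw [h2, hg, C.gfun_apply σ (C.anch z.1 + k) j (v, z.2), ht, h1]
    refine Prod.ext ?_ rfl
    change N • (C.anch z.1 + k) + _ = N • C.anch z.1 + _ + N • k
    rw [smul_add]; abel
  · intro p j
    apply sgnOn_eq_sign (fun s : C.D j × ι => ((N • p + (s.1 : Z2), s.2) : Z2 × ι))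
    · rintro ⟨v, f⟩ ⟨v', f'⟩ h
      simp only [Prod.mk.injEq, add_right_inj] at h
      exact Prod.ext (Subtype.ext h.1) h.2
    · exact C.mem_cell_iff p j
    · exact fun s => C.gfun_apply σ p j s

/-- Gluing even permutations gives an element of the group. -/
theorem glue_mem [Finite J] [Finite Θ] (C : CS N J Θ) (σ : (j : J) → Θ → Perm (C.D j × ι))
    (hσ : ∀ j θ, Perm.sign (σ j θ) = 1) :
    ∃ g ∈ C.G ι, ∀ (p : Z2) (j : J) (s : C.D j × ι),
      g (N • p + (s.1 : Z2), s.2) =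
        (N • p + ((σ j (C.typ j p) s).1 : Z2), (σ j (C.typ j p) s).2) := by
  obtain ⟨g, h1, h2, h3⟩ := C.glue σ
  exact ⟨g, C.mem_of_isIn ⟨h1, fun p j => by rw [h3, hσ]⟩, h2⟩

end CS

/-- An involution exchanging two disjoint finite sets of the same size. -/
theorem exists_exchange {α : Type*} [DecidableEq α] (A B : Finset α) (h : A.card = B.card)
    (hd : Disjoint A B) : ∃ τ : Perm α, (∀ s ∈ A, τ s ∈ B) ∧ (∀ s ∈ B, τ s ∈ A) ∧
      ∀ s, s ∉ A → s ∉ B → τ s = s := by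
  obtain ⟨e⟩ : Nonempty (A ≃ B) := ⟨Finset.equivOfCardEq h⟩
  let t : α → α := fun s => if h1 : s ∈ A then (e ⟨s, h1⟩ : α) else
    if h2 : s ∈ B then (e.symm ⟨s, h2⟩ : α) else s
  have hA : ∀ s (h1 : s ∈ A), t s = (e ⟨s, h1⟩ : α) := fun s h1 => by simp only [t, dif_pos h1]
  have hB : ∀ s (h2 : s ∈ B), t s = (e.symm ⟨s, h2⟩ : α) := fun s h2 => by
    have h1 : s ∉ A := fun h1 => Finset.disjoint_left.1 hd h1 h2
    simp only [t, dif_neg h1, dif_pos h2]
  have hN : ∀ s, s ∉ A → s ∉ B → t s = s := fun s h1 h2 => by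
    simp only [t, dif_neg h1, dif_neg h2]
  have hinv : Function.Involutive t := by
    intro s
    by_cases h1 : s ∈ A
    · rw [hA s h1, hB _ (e ⟨s, h1⟩).2]
      simp
    · by_cases h2 : s ∈ B
      · rw [hB s h2, hA _ (e.symm ⟨s, h2⟩).2]
        simp
      · rw [hN s h1 h2, hN s h1 h2]
  refine ⟨hinv.toPerm t, ?_, ?_, ?_⟩
  · intro s hs
    change t s ∈ B
    rw [hA s hs]
    exact (e ⟨s, hs⟩).2
  · intro s hs
    change t s ∈ A
    rw [hB s hs]
    exact (e.symm ⟨s, hs⟩).2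
  · exact hN

end Vale.Agent.P196.Cut
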