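import Vale.Agent.P196.S0.Simple

/-!
# P196, cutting: letters

The letter `ltr σ E a` is the local permutation `dP σ * eP E a * (dP σ)⁻¹`: its cells are the sets
`{(x + σ f, f)}`, `x ∈ E` (the base point), and it acts by `a` on every cell.
-/

namespace Vale.Agent.P196.Cut

open Equiv Vale.Agent.P196.S0

section basic

variable {ι : Type*}

/-- The letter homomorphism with displacements `σ` and base set `E`. -/
noncomputable def ltr (σ : ι → Z2) (E : Set Z2) : Perm ι →* Perm (Z2 × ι) :=
  (MulAut.conj (dP σ)).toMonoidHom.comp (ePHom E)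

theorem ltr_eq (σ : ι → Z2) (E : Set Z2) (a : Perm ι) :
    ltr σ E a = dP σ * eP E a * (dP σ)⁻¹ := rfl

theorem ltr_apply_mem {σ : ι → Z2} {E : Set Z2} {a : Perm ι} {u : Z2} {f : ι}
    (h : u - σ f ∈ E) : ltr σ E a (u, f) = (u - σ f + σ (a f), a f) := by
  rw [ltr_eq, Perm.mul_apply, Perm.mul_apply, dP_inv, dP_apply (-σ) u f]
  have h1 : u + (-σ) f = u - σ f := by simp [sub_eq_add_neg]
  rw [h1, eP_apply_mem h, dP_apply]

theorem ltr_apply_notMem {σ : ι → Z2} {E : Set Z2} {a : Perm ι} {u : Z2} {f : ι}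
    (h : u - σ f ∉ E) : ltr σ E a (u, f) = (u, f) := by
  rw [ltr_eq, Perm.mul_apply, Perm.mul_apply, dP_inv, dP_apply (-σ) u f]
  have h1 : u + (-σ) f = u - σ f := by simp [sub_eq_add_neg]
  rw [h1, eP_apply_notMem h, dP_apply]
  simp

/-- The same on the point `(x + σ f, f)` of the cell with base point `x`. -/
theorem ltr_cell_mem {σ : ι → Z2} {E : Set Z2} {a : Perm ι} {x : Z2} {f : ι}
    (h : x ∈ E) : ltr σ E a (x + σ f, f) = (x + σ (a f), a f) := by
  rw [ltr_apply_mem (by simpa using h)]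
  simp

theorem ltr_cell_notMem {σ : ι → Z2} {E : Set Z2} {a : Perm ι} {x : Z2} {f : ι}
    (h : x ∉ E) : ltr σ E a (x + σ f, f) = (x + σ f, f) :=
  ltr_apply_notMem (by simpa using h)

theorem ltr_empty (σ : ι → Z2) (a : Perm ι) : ltr σ ∅ a = 1 := by
  rw [ltr_eq, eP_empty]
  simp

theorem ltr_union (σ : ι → Z2) {E F : Set Z2} (h : Disjoint E F) (a : Perm ι) :
    ltr σ (E ∪ F) a = ltr σ E a * ltr σ F a := by
  rw [ltr_eq, ltr_eq, ltr_eq, eP_union h]
  group

/-- Decomposition of a letter along a partition of the base points in three sets. -/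
theorem ltr_split (σ : ι → Z2) (E D1 D2 D3 : Set Z2) (h12 : Disjoint D1 D2)
    (h13 : Disjoint D1 D3) (h23 : Disjoint D2 D3) (hD : D1 ∪ D2 ∪ D3 = Set.univ) (a : Perm ι) :
    ltr σ E a = ltr σ (E ∩ D1) a * ltr σ (E ∩ D2) a * ltr σ (E ∩ D3) a := by
  have h : E = ((E ∩ D1) ∪ (E ∩ D2)) ∪ (E ∩ D3) := by
    rw [← Set.inter_union_distrib_left, ← Set.inter_union_distrib_left, hD, Set.inter_univ]
  conv_lhs => rw [h]
  rw [ltr_union, ltr_union]
  · exact h12.mono Set.inter_subset_right Set.inter_subset_right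
  · rw [Set.disjoint_union_left]
    exact ⟨h13.mono Set.inter_subset_right Set.inter_subset_right,
      h23.mono Set.inter_subset_right Set.inter_subset_right⟩

/-- The letter only depends on the values of `σ` on the support of `a`. -/
theorem ltr_congr {σ τ : ι → Z2} (E : Set Z2) {a : Perm ι} (h : ∀ f, a f ≠ f → σ f = τ f) :
    ltr σ E a = ltr τ E a := by
  have h1 : dP (τ - σ) * eP E a * (dP (τ - σ))⁻¹ = eP E a := by
    rw [dP_conj_eP (v := 0) (fun f hf => by simp [h f hf])]
    simp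
  have h2 : dP τ = dP σ * dP (τ - σ) := by
    rw [dP_mul]
    congr 1
    abel
  rw [ltr_eq, ltr_eq, h2, mul_inv_rev]
  calc dP σ * eP E a * (dP σ)⁻¹
      = dP σ * (dP (τ - σ) * eP E a * (dP (τ - σ))⁻¹) * (dP σ)⁻¹ := by rw [h1]
    _ = _ := by group

/-- Letters with different base points sets commute if no cell of one meets a cell of the other. -/
theorem ltr_commute {σ τ : ι → Z2} {E F : Set Z2} (a b : Perm ι)
    (h : ∀ x ∈ E, ∀ y ∈ F, ∀ f, x + σ f ≠ y + τ f) :
    Commute (ltr σ E a) (ltr τ F b) := by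
  have hE : ∀ u f, u - σ f ∈ E → u - τ f ∉ F := by
    intro u f h1 h2
    exact h _ h1 _ h2 f (by simp)
  refine Equiv.ext fun ⟨u, f⟩ => ?_
  rw [Perm.mul_apply, Perm.mul_apply]
  by_cases h1 : u - σ f ∈ E
  · have h2 := hE u f h1
    rw [ltr_apply_notMem h2, ltr_apply_mem h1]
    have h3 : u - σ f + σ (a f) - τ (a f) ∉ F := by
      apply hE
      simpa using h1
    rw [ltr_apply_notMem h3]
  · rw [ltr_apply_notMem h1]
    by_cases h2 : u - τ f ∈ F
    · rw [ltr_apply_mem h2]
      rw [ltr_apply_notMem]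
      intro h3
      apply hE _ _ h3
      simpa using h2
    · rw [ltr_apply_notMem h2, ltr_apply_notMem h1]

end basic

section grp

variable {ι : Type*} [Fintype ι] [DecidableEq ι] {LS : Set (Set Z2)}

theorem ltr_mem (hι : 5 ≤ Fintype.card ι) (σ : ι → Z2) {E : Set Z2} (hE : E ∈ LS) {a : Perm ι}
    (ha : a ∈ alternatingGroup ι) : ltr σ E a ∈ grp ι LS := by
  have key : alternatingGroup ι ≤ (grp ι LS).comap (ltr σ E) := by
    apply alternating_le_of_cyc
    intro f1 f2 f3 h12 h23 h13
    rw [Subgroup.mem_comap]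
    obtain ⟨w, hw, hw1, hw2, hw3⟩ := exists_w hι h12 h23 h13 (σ f1) (σ f2) (σ f3)
    have h : ltr σ E (cyc f1 f2 f3) = ltr w E (cyc f1 f2 f3) := by
      apply ltr_congr
      intro f hf
      by_cases h1 : f = f1
      · rw [h1, hw1]
      · by_cases h2 : f = f2
        · rw [h2, hw2]
        · by_cases h3 : f = f3
          · rw [h3, hw3]
          · exact absurd (cyc_apply_of h1 h2 h3) hf
    rw [h, ltr_eq]
    exact Subgroup.mul_mem _ (Subgroup.mul_mem _ (dP_mem hw)
      (eP_mem hE (cyc_mem_alternating h12 h23))) (Subgroup.inv_mem _ (dP_mem hw))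
  exact key ha

/-- The set of all letters. -/
def letters (ι : Type*) [Fintype ι] [DecidableEq ι] (LS : Set (Set Z2)) :
    Set (Perm (Z2 × ι)) :=
  {g | ∃ (σ : ι → Z2) (E : Set Z2), E ∈ LS ∧ ∃ a ∈ alternatingGroup ι, g = ltr σ E a}

theorem dP_mem_closure (hι : 5 ≤ Fintype.card ι) (hu : Set.univ ∈ LS) {w : ι → Z2}
    (hw : ∑ i, w i = 0) : dP w ∈ Subgroup.closure (letters ι LS) := by
  -- elementary translations
  have hel : ∀ (i j : ι), i ≠ j → ∀ v : Z2,
      dP (Pi.single i v - Pi.single j v : ι → Z2) ∈ Subgroup.closure (letters ι LS) := by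
    intro i j hij v
    obtain ⟨k, hk⟩ := exists_floor hι {i, j} ((Finset.card_le_two).trans (by norm_num))
    simp only [Finset.mem_insert, Finset.mem_singleton, not_or] at hk
    have hki : i ≠ k := fun h => hk.1 h.symm
    have hkj : j ≠ k := fun h => hk.2 h.symm
    have ha := cyc_mem_alternating hij hkj
    set a := cyc i j k with haa
    have h1 : ltr (Pi.single i v) Set.univ a ∈ Subgroup.closure (letters ι LS) :=
      Subgroup.subset_closure ⟨_, _, hu, a, ha, rfl⟩
    have h2 : ltr 0 Set.univ a ∈ Subgroup.closure (letters ι LS) :=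
      Subgroup.subset_closure ⟨_, _, hu, a, ha, rfl⟩
    have h3 : dP (Pi.single i v - Pi.single j v : ι → Z2) =
        ltr (Pi.single i v) Set.univ a * (ltr 0 Set.univ a)⁻¹ := by
      rw [eq_mul_inv_iff_mul_eq]
      refine Equiv.ext fun ⟨u, f⟩ => ?_
      rw [Perm.mul_apply, ltr_apply_mem (Set.mem_univ _), ltr_apply_mem (Set.mem_univ _),
        dP_apply]
      refine Prod.ext ?_ rfl
      have hv : (Pi.single j v : ι → Z2) (a f) = (Pi.single i v : ι → Z2) f := by
        by_cases hf : f = i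
        · subst hf
          rw [haa, cyc_apply_a hij hki]
          simp
        · have h4 : a f ≠ j := by
            intro h5
            have h6 : a i = j := by rw [haa, cyc_apply_a hij hki]
            exact hf (a.injective (h5.trans h6.symm))
          rw [Pi.single_eq_of_ne h4, Pi.single_eq_of_ne hf]
      simp only [Pi.sub_apply, Pi.zero_apply, hv]
      abel
    rw [h3]
    exact Subgroup.mul_mem _ h1 (Subgroup.inv_mem _ h2)
  -- general translations
  obtain ⟨i0, -⟩ := exists_floor hι (∅ : Finset ι) (by simp)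
  have hsum : ∀ s : Finset ι, dP (∑ i ∈ s, (Pi.single i (w i) - Pi.single i0 (w i)) : ι → Z2) ∈
      Subgroup.closure (letters ι LS) := by
    intro s
    induction s using Finset.induction_on with
    | empty =>
      rw [Finset.sum_empty, dP_zero]
      exact Subgroup.one_mem _
    | insert i s hi ih =>
      rw [Finset.sum_insert hi, ← dP_mul]
      refine Subgroup.mul_mem _ ?_ ih
      by_cases h : i = i0
      · subst h
        rw [sub_self, dP_zero]
        exact Subgroup.one_mem _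
      · exact hel i i0 h (w i)
  have h1 := hsum Finset.univ
  have h2 : (∑ i, (Pi.single i (w i) - Pi.single i0 (w i)) : ι → Z2) = w := by
    rw [Finset.sum_sub_distrib, Finset.univ_sum_single]
    have : (∑ i, Pi.single i0 (w i) : ι → Z2) = Pi.single i0 (∑ i, w i) := by
      ext1 f
      by_cases hf : f = i0
      · subst hf
        simp [Finset.sum_apply]
      · simp [Finset.sum_apply, Pi.single_eq_of_ne hf]
    rw [this, hw]
    simp
  rwa [h2] at h1

theorem grp_eq_closure_letters (hι : 5 ≤ Fintype.card ι) (hu : Set.univ ∈ LS) :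
    grp ι LS = Subgroup.closure (letters ι LS) := by
  apply le_antisymm
  · rw [grp, Subgroup.closure_le]
    rintro g (⟨E, hE, a, ha, rfl⟩ | ⟨w, hw, rfl⟩)
    · apply Subgroup.subset_closure
      refine ⟨0, E, hE, a, ha, ?_⟩
      rw [ltr_eq, dP_zero]
      simp
    · exact dP_mem_closure hι hu hw
  · rw [Subgroup.closure_le]
    rintro g ⟨σ, E, hE, a, ha, rfl⟩
    exact ltr_mem hι σ hE ha

/-- If the group is finitely generated, it is generated by finitely many letter groups. -/
theorem exists_finite_letters (hι : 5 ≤ Fintype.card ι) (hu : Set.univ ∈ LS)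
    (hfg : Group.FG (grp ι LS)) :
    ∃ (n : ℕ) (σ : Fin n → ι → Z2) (E : Fin n → Set Z2), (∀ k, E k ∈ LS) ∧
      ⨆ k, (alternatingGroup ι).map (ltr (σ k) (E k)) = grp ι LS := by
  classical
  -- the letter groups indexed by all pairs
  let P : (ι → Z2) × LS → Subgroup (Perm (Z2 × ι)) :=
    fun q => (alternatingGroup ι).map (ltr q.1 q.2.1)
  have hsup : ⨆ q, P q = grp ι LS := by
    apply le_antisymm
    · refine iSup_le fun q => ?_
      rintro g ⟨a, ha, rfl⟩
      exact ltr_mem hι _ q.2.2 ha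
    · rw [grp_eq_closure_letters hι hu, Subgroup.closure_le]
      rintro g ⟨σ, E, hE, a, ha, rfl⟩
      exact Subgroup.mem_iSup_of_mem (S := P) (σ, ⟨E, hE⟩) ⟨a, ha, rfl⟩
  have hfg' : (grp ι LS).FG := (Group.fg_iff_subgroup_fg _).1 hfg
  obtain ⟨S, hS⟩ := hfg'
  -- each element of `S` lies in a finite sup
  have hfin : ∀ g ∈ grp ι LS, ∃ s : Finset ((ι → Z2) × LS), g ∈ ⨆ q ∈ s, P q := by
    intro g hg
    rw [grp_eq_closure_letters hι hu] at hg
    induction hg using Subgroup.closure_induction with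
    | mem g hg =>
      obtain ⟨σ, E, hE, a, ha, rfl⟩ := hg
      refine ⟨{(σ, ⟨E, hE⟩)}, ?_⟩
      have : P (σ, ⟨E, hE⟩) ≤ ⨆ q ∈ ({(σ, ⟨E, hE⟩)} : Finset ((ι → Z2) × LS)), P q :=
        le_iSup₂_of_le (σ, ⟨E, hE⟩) (Finset.mem_singleton_self _) le_rfl
      exact this ⟨a, ha, rfl⟩
    | one => exact ⟨∅, Subgroup.one_mem _⟩
    | mul x y _ _ hx hy =>
      obtain ⟨s, hs⟩ := hx
      obtain ⟨t, ht⟩ := hy
      refine ⟨s ∪ t, Subgroup.mul_mem _ ?_ ?_⟩
      · have h : (⨆ q ∈ s, P q) ≤ ⨆ q ∈ s ∪ t, P q :=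
          biSup_mono (fun q hq => Finset.mem_union_left _ hq)
        exact h hs
      · have h : (⨆ q ∈ t, P q) ≤ ⨆ q ∈ s ∪ t, P q :=
          biSup_mono (fun q hq => Finset.mem_union_right _ hq)
        exact h ht
    | inv x _ hx =>
      obtain ⟨s, hs⟩ := hx
      exact ⟨s, Subgroup.inv_mem _ hs⟩
  have hSg : ∀ g ∈ S, g ∈ grp ι LS := by
    intro g hg
    rw [← hS]
    exact Subgroup.subset_closure hg
  choose! s hs using hfin
  let T : Finset ((ι → Z2) × LS) := S.biUnion s
  have hT : ⨆ q ∈ T, P q = grp ι LS := by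
    apply le_antisymm
    · rw [← hsup]
      exact iSup₂_le fun q _ => le_iSup P q
    · rw [← hS, Subgroup.closure_le]
      intro g hg
      have h1 := hs g (hSg g hg)
      have h2 : (⨆ q ∈ s g, P q) ≤ ⨆ q ∈ T, P q :=
        biSup_mono (fun q hq => Finset.mem_biUnion.2 ⟨g, hg, hq⟩)
      exact h2 h1
  let e := T.equivFin
  refine ⟨T.card, fun k => (e.symm k).1.1, fun k => (e.symm k).1.2.1, fun k => (e.symm k).1.2.2,
    ?_⟩
  rw [← hT]
  apply le_antisymm
  · refine iSup_le fun k => ?_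
    exact le_iSup₂_of_le (e.symm k).1 (e.symm k).2 le_rfl
  · refine iSup₂_le fun q hq => ?_
    have := le_iSup (fun k => (alternatingGroup ι).map (ltr ((e.symm k).1.1) ((e.symm k).1.2.1)))
      (e ⟨q, hq⟩)
    simpa using this

end grp

end Vale.Agent.P196.Cut
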