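import Vale.Agent.P196.Cut.FactDefs

set_option linter.unusedSectionVars false

noncomputable section

namespace Vale.Agent.P196.Cut

open Equiv Vale.Agent.P196.S0

theorem stmtA979 : StmtA := by
  intro N J Θ J' Θ' _ _ _ _ C C' φ off h ht ι _ _ g hg
  classical
  have := Fintype.ofFinite J
  have hI := C.isIn_of_mem hg
  -- a point of a `C`-cell is in the corresponding `C'`-cell
  have hfix : ∀ z : Z2 × ι, C.lab z.1 = none → g z = z := hI.acts.none
  apply CS.mem_of_isIn
  have hacts : C'.Acts g := by
    refine ⟨?_, ?_, ?_⟩
    · intro z hz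
      apply hfix
      cases hl : C.lab z.1 with
      | none => rfl
      | some j =>
        have := (h z.1 j hl).1
        rw [hz] at this
        exact absurd this (by simp)
    · intro z j' hz
      cases hl : C.lab z.1 with
      | none => rw [hfix z hl]; exact ⟨rfl, hz⟩
      | some j =>
        obtain ⟨h1, h2⟩ := h z.1 j hl
        obtain ⟨h3, h4⟩ := hI.acts.cell z j hl
        obtain ⟨h5, h6⟩ := h (g z).1 j h4
        rw [h5, h6, h3, h2]
        refine ⟨rfl, ?_⟩
        rw [← h1]; exact hz
    · intro z j' k hz hk
      cases hl : C.lab z.1 with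
      | none =>
        rw [hfix z hl]
        apply hfix
        change C.lab (z.1 + N • k) = none
        rw [C.lab_add]; exact hl
      | some j =>
        obtain ⟨h1, h2⟩ := h z.1 j hl
        apply hI.acts.equi z j k hl
        rw [h1] at hz
        have hj := Option.some.inj hz
        subst hj
        rw [h2] at hk
        apply ht
        rw [show C.anch z.1 + k + off j = C.anch z.1 + off j + k by abel]
        exact hk
  refine ⟨hacts, fun p j' => ?_⟩
  -- the union of the `C`-cells inside the cell `(p, j')`
  set U : Finset (Z2 × ι) := (Finset.univ.filter (fun j => φ j = j')).biUnion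
    (fun j => C.cell ι (p - off j) j) with hU
  have hinv : ∀ j ∈ Finset.univ.filter (fun j => φ j = j'), Inv (C.cell ι (p - off j) j) g :=
    fun j _ => hI.acts.inv_cell _ j
  have h1 : sgnOn (C'.cell ι p j') g = sgnOn U g := by
    apply sgnOn_subset
    · intro z hz
      rw [hU, Finset.mem_biUnion] at hz
      obtain ⟨j, hj, hz⟩ := hz
      rw [Finset.mem_filter] at hj
      rw [C.mem_cell] at hz
      obtain ⟨h2, h3⟩ := h z.1 j hz.2
      rw [C'.mem_cell, h2, h3, hz.1, hj.2]
      exact ⟨by abel, rfl⟩
    · exact inv_biUnion hinv
    · intro z hz hz'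
      apply hfix
      cases hl : C.lab z.1 with
      | none => rfl
      | some j =>
        exfalso
        apply hz'
        obtain ⟨h2, h3⟩ := h z.1 j hl
        rw [C'.mem_cell, h2, h3] at hz
        rw [hU, Finset.mem_biUnion]
        refine ⟨j, ?_, ?_⟩
        · rw [Finset.mem_filter]
          exact ⟨Finset.mem_univ _, Option.some.inj hz.2⟩
        · rw [C.mem_cell]
          refine ⟨?_, hl⟩
          rw [← hz.1]; abel
  rw [h1, hU, sgnOn_biUnion _ _ _ hinv]
  · apply Finset.prod_eq_one
    intro j _
    exact hI.even _ j
  · intro j _ j2 _ hne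
    rw [Finset.disjoint_left]
    intro z hz hz2
    rw [C.mem_cell] at hz hz2
    apply hne
    have := hz.2.symm.trans hz2.2
    exact Option.some.inj this

end Vale.Agent.P196.Cut
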