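import Vale.Agent.P196.Cut.FactDefs

/-!
# P196, cutting: the inclusions between the groups of the concrete cell systems (`StmtB`)
-/

noncomputable section

namespace Vale.Agent.P196.Cut

open Equiv Vale.Agent.P196.S0

/-- displacement `e₁` if `t`, else `0` -/
def o1 (t : Bool) : Z2 := if t then (1, 0) else (0, 0)

/-- displacement `e₂` if `t`, else `0` -/
def o2 (t : Bool) : Z2 := if t then (0, 1) else (0, 0)

theorem stmtB_of (hA : StmtA) : StmtB := by
  intro T Th Tv Tf _ _ _ _ ι _ _ M hM s Y
  have hv := vI_eq hM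
  refine ⟨?_, ?_, ?_, ?_, ?_, ?_, ?_, ?_, ?_⟩
  · -- Z ≤ V
    refine hA _ _ _ _ _ (Zsys hM Y) (Vsys hM Y) (fun _ => ())
      (fun j => o1 j.1 + o2 j.2) ?_ ?_ ι
    · rintro u ⟨a, b⟩ hu
      have hu' : some (hf M u.1, hf M u.2) = some (a, b) := hu
      obtain ⟨h1, h2⟩ := Prod.mk.inj (Option.some.inj hu')
      refine ⟨rfl, ?_⟩
      change aV M u = aF M u + (o1 a + o2 b)
      subst h1 h2
      unfold aV aF o1 o2
      rw [hv, hv]
      refine Prod.ext ?_ ?_
      · cases hf M u.1 <;> cases hf M u.2 <;> simp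
      · cases hf M u.1 <;> cases hf M u.2 <;> simp
    · rintro ⟨a, b⟩ p p' h
      have h' : Y.ty (p + (o1 a + o2 b)) = Y.ty (p' + (o1 a + o2 b)) := h
      change Y.tf p = Y.tf p'
      have e1 : ∀ q : Z2, q + ((1, 0) + (0, 1)) - (1, 0) - (0, 1) = q := fun q => by abel
      have e2 : ∀ q : Z2, q + (1, 0) - (1, 0) = q := fun q => by abel
      have e3 : ∀ q : Z2, q + (0, 1) - (0, 1) = q := fun q => by abel
      cases a <;> cases b
      · simp only [o1, o2, Bool.false_eq_true, if_false, Prod.mk_zero_zero, add_zero] at h'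
        exact Y.th_tf _ _ (Y.ty_th _ _ h')
      · simp only [o1, o2, Bool.false_eq_true, if_false, if_true, Prod.mk_zero_zero,
          zero_add] at h'
        have := Y.th_tf' _ _ (Y.ty_th _ _ h')
        rwa [e3, e3] at this
      · simp only [o1, o2, Bool.false_eq_true, if_false, if_true, Prod.mk_zero_zero,
          add_zero] at h'
        have := Y.th_tf _ _ (Y.ty_th' _ _ h')
        rwa [e2, e2] at this
      · simp only [o1, o2, if_true] at h'
        have := Y.th_tf' _ _ (Y.ty_th' _ _ h')
        rwa [e1, e1] at this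
  · -- Z ≤ F
    refine hA _ _ _ _ _ (Zsys hM Y) (Fsys hM Y) (fun _ => ()) (fun _ => 0) ?_ ?_ ι
    · intro u j _
      exact ⟨rfl, (add_zero (aF M u)).symm⟩
    · intro j p p' h
      have h' : Y.tf (p + 0) = Y.tf (p' + 0) := h
      rw [add_zero, add_zero] at h'
      exact h'
  · -- S ≤ V
    refine hA _ _ _ _ _ (Ssys hM Y) (Vsys hM Y) (fun _ => ())
      (fun j => if j.1 then o1 j.2 else o2 j.2) ?_ ?_ ι
    · rintro u ⟨a, b⟩ hu
      have hu' : some (sH M u, if sH M u then hf M u.1 else hf M u.2) = some (a, b) := hu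
      obtain ⟨h1, h2⟩ := Prod.mk.inj (Option.some.inj hu')
      refine ⟨rfl, ?_⟩
      change aV M u = aR M u + (if a then o1 b else o2 b)
      subst h1 h2
      unfold aV aR o1 o2
      rw [hv, hv]
      cases sH M u
      · refine Prod.ext ?_ ?_
        · cases hf M u.1 <;> cases hf M u.2 <;> simp
        · cases hf M u.1 <;> cases hf M u.2 <;> simp
      · refine Prod.ext ?_ ?_
        · cases hf M u.1 <;> cases hf M u.2 <;> simp
        · cases hf M u.1 <;> cases hf M u.2 <;> simp
    · rintro ⟨a, b⟩ p p' h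
      have h' : Y.ty (p + (if a then o1 b else o2 b)) = Y.ty (p' + (if a then o1 b else o2 b)) := h
      change Y.te a p = Y.te a p'
      have e2 : ∀ q : Z2, q + (1, 0) - (1, 0) = q := fun q => by abel
      have e3 : ∀ q : Z2, q + (0, 1) - (0, 1) = q := fun q => by abel
      unfold TySys.te
      cases a <;> cases b
      · simp only [o2, Bool.false_eq_true, if_false, Prod.mk_zero_zero, add_zero] at h' ⊢
        rw [Y.ty_tv _ _ h']
      · simp only [o2, Bool.false_eq_true, if_false, if_true] at h' ⊢
        have := Y.ty_tv' _ _ h'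
        rw [e3, e3] at this
        rw [this]
      · simp only [o1, Bool.false_eq_true, if_false, if_true, Prod.mk_zero_zero, add_zero] at h' ⊢
        rw [Y.ty_th _ _ h']
      · simp only [o1, if_true] at h' ⊢
        have := Y.ty_th' _ _ h'
        rw [e2, e2] at this
        rw [this]
  · -- S ≤ R
    refine hA _ _ _ _ _ (Ssys hM Y) (Rsys hM Y) (fun j => j.1) (fun _ => 0) ?_ ?_ ι
    · rintro u ⟨a, b⟩ hu
      have hu' : some (sH M u, if sH M u then hf M u.1 else hf M u.2) = some (a, b) := hu
      obtain ⟨h1, _⟩ := Prod.mk.inj (Option.some.inj hu')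
      exact ⟨congrArg some h1, (add_zero (aR M u)).symm⟩
    · rintro ⟨a, b⟩ p p' h
      have h' : Y.te a (p + 0) = Y.te a (p' + 0) := h
      rw [add_zero, add_zero] at h'
      exact h'
  · -- Q ≤ R
    refine hA _ _ _ _ _ (Qsys hM Y) (Rsys hM Y) (fun j => j.1)
      (fun j => if j.1 then o2 j.2 else o1 j.2) ?_ ?_ ι
    · rintro u ⟨a, b⟩ hu
      have hu' : some (sH M u, if sH M u then hf M u.2 else hf M u.1) = some (a, b) := hu
      obtain ⟨h1, h2⟩ := Prod.mk.inj (Option.some.inj hu')
      refine ⟨congrArg some h1, ?_⟩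
      change aR M u = aF M u + (if a then o2 b else o1 b)
      subst h1 h2
      unfold aF aR o1 o2
      rw [hv, hv]
      cases sH M u
      · refine Prod.ext ?_ ?_
        · cases hf M u.1 <;> cases hf M u.2 <;> simp
        · cases hf M u.1 <;> cases hf M u.2 <;> simp
      · refine Prod.ext ?_ ?_
        · cases hf M u.1 <;> cases hf M u.2 <;> simp
        · cases hf M u.1 <;> cases hf M u.2 <;> simp
    · rintro ⟨a, b⟩ p p' h
      have h' : Y.te a (p + (if a then o2 b else o1 b)) =
        Y.te a (p' + (if a then o2 b else o1 b)) := h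
      change Y.tf p = Y.tf p'
      have e2 : ∀ q : Z2, q + (1, 0) - (1, 0) = q := fun q => by abel
      have e3 : ∀ q : Z2, q + (0, 1) - (0, 1) = q := fun q => by abel
      unfold TySys.te at h'
      cases a <;> cases b
      · simp only [o1, Bool.false_eq_true, if_false, Prod.mk_zero_zero, add_zero,
          Sum.inr.injEq] at h'
        exact Y.tv_tf _ _ h'
      · simp only [o1, Bool.false_eq_true, if_false, if_true, Sum.inr.injEq] at h'
        have := Y.tv_tf' _ _ h'
        rwa [e2, e2] at this
      · simp only [o2, Bool.false_eq_true, if_false, if_true, Prod.mk_zero_zero, add_zero,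
          Sum.inl.injEq] at h'
        exact Y.th_tf _ _ h'
      · simp only [o2, if_true, Sum.inl.injEq] at h'
        have := Y.th_tf' _ _ h'
        rwa [e3, e3] at this
  · -- Q ≤ F
    refine hA _ _ _ _ _ (Qsys hM Y) (Fsys hM Y) (fun _ => ()) (fun _ => 0) ?_ ?_ ι
    · intro u j _
      exact ⟨rfl, (add_zero (aF M u)).symm⟩
    · intro j p p' h
      have h' : Y.tf (p + 0) = Y.tf (p' + 0) := h
      rw [add_zero, add_zero] at h'
      exact h'
  · -- RS ≤ R
    refine hA _ _ _ _ _ (RSsys hM s Y) (Rsys hM Y) (fun j => j) (fun _ => 0) ?_ ?_ ι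
    · intro u j hu
      have hu' : (if hR M u < s then some (sH M u) else none) = some j := hu
      split_ifs at hu'
      exact ⟨hu', (add_zero (aR M u)).symm⟩
    · intro a p p' h
      have h' : Y.te a (p + 0) = Y.te a (p' + 0) := h
      rw [add_zero, add_zero] at h'
      exact h'
  · -- VO ≤ V
    refine hA _ _ _ _ _ (VOsys hM s Y) (Vsys hM Y) (fun j => j) (fun _ => 0) ?_ ?_ ι
    · intro u j _
      exact ⟨rfl, (add_zero (aV M u)).symm⟩
    · intro a p p' h
      have h' : Y.ty (p + 0) = Y.ty (p' + 0) := h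
      rw [add_zero, add_zero] at h'
      exact h'
  · -- commutation
    intro g hg h hh
    have hg' := ((RSsys hM s Y).isIn_of_mem hg).acts.none
    have hh' := ((VOsys hM s Y).isIn_of_mem hh).acts.none
    refine Perm.Disjoint.commute (f := g) (g := h) ?_
    intro z
    by_cases hz : hR M z.1 < s
    · right
      apply hh' z
      change (if hR M z.1 < s then none else some ()) = none
      rw [if_pos hz]
    · left
      apply hg' z
      change (if hR M z.1 < s then some (sH M z.1) else none) = none
      rw [if_neg hz]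

end Vale.Agent.P196.Cut
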