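import Vale.Agent.P196.Cut.FactDefs

set_option linter.unusedSectionVars false

noncomputable section

namespace Vale.Agent.P196.Cut

open Equiv Vale.Agent.P196.S0

theorem eP_mul_symmDiff {ι : Type} [DecidableEq ι] (E F : Set Z2) (a b : ι) :
    eP E (swap a b) * eP F (swap a b) = eP (symmDiff E F) (swap a b) := by
  ext1 ⟨u, f⟩
  rw [Perm.mul_apply]
  by_cases hE : u ∈ E <;> by_cases hF : u ∈ F
  · have h : u ∉ symmDiff E F := by rw [Set.mem_symmDiff]; tauto
    rw [eP_apply_mem hF, eP_apply_mem hE, eP_apply_notMem h, swap_apply_self]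
  · have h : u ∈ symmDiff E F := by rw [Set.mem_symmDiff]; tauto
    rw [eP_apply_notMem hF, eP_apply_mem hE, eP_apply_mem h]
  · have h : u ∈ symmDiff E F := by rw [Set.mem_symmDiff]; tauto
    rw [eP_apply_mem hF, eP_apply_notMem hE, eP_apply_mem h]
  · have h : u ∉ symmDiff E F := by rw [Set.mem_symmDiff]; tauto
    rw [eP_apply_notMem hF, eP_apply_notMem hE, eP_apply_notMem h]

theorem sgnOn_eP_swap {ι : Type} [Fintype ι] [DecidableEq ι] (E : Set Z2) {a b : ι} (hab : a ≠ b)
    (D : Finset Z2) : sgnOn (D ×ˢ (Finset.univ : Finset ι)) (eP E (swap a b)) =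
      (-1) ^ (open Classical in (D.filter (fun u => u ∈ E)).card) := by
  classical
  have hinv : ∀ D : Finset Z2, Inv (D ×ˢ (Finset.univ : Finset ι)) (eP E (swap a b)) := by
    intro D
    apply inv_of_forall
    rintro ⟨u, f⟩ hz
    by_cases hu : u ∈ E
    · rw [eP_apply_mem hu]
      simpa using hz
    · rw [eP_apply_notMem hu]
      exact hz
  induction D using Finset.induction_on with
  | empty =>
    rw [sgnOn_of_fix (by simp)]
    simp
  | insert u D hu ih =>
    have h1 : insert u D ×ˢ (Finset.univ : Finset ι) = ({u} : Finset Z2) ×ˢ Finset.univ ∪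
        D ×ˢ Finset.univ := by
      rw [← Finset.union_product]
      rfl
    have h2 : Disjoint (({u} : Finset Z2) ×ˢ (Finset.univ : Finset ι)) (D ×ˢ Finset.univ) := by
      rw [Finset.disjoint_left]
      rintro ⟨x, f⟩ h3 h4
      simp only [Finset.mem_product, Finset.mem_singleton, Finset.mem_univ, and_true] at h3 h4
      subst h3
      exact hu h4
    rw [h1, sgnOn_union h2 (hinv _) (hinv _), ih, Finset.filter_insert]
    by_cases hE : u ∈ E
    · have h3 : sgnOn (({u} : Finset Z2) ×ˢ (Finset.univ : Finset ι)) (eP E (swap a b)) = -1 := by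
        apply sgnOn_swap (z := (u, a)) (w := (u, b)) (by simp) (by simp)
          (fun h => hab (congrArg Prod.snd h))
        rintro ⟨x, f⟩ hx
        simp only [Finset.mem_product, Finset.mem_singleton, Finset.mem_univ, and_true] at hx
        subst hx
        rw [eP_apply_mem hE]
        by_cases hfa : f = a
        · subst hfa
          rw [swap_apply_left, swap_apply_left]
        · by_cases hfb : f = b
          · subst hfb
            rw [swap_apply_right, swap_apply_right]
          · rw [swap_apply_of_ne_of_ne hfa hfb, swap_apply_of_ne_of_ne]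
            · exact fun h => hfa (congrArg Prod.snd h)
            · exact fun h => hfb (congrArg Prod.snd h)
      rw [h3, if_pos hE, Finset.card_insert_of_notMem (by simp [hu]), pow_succ, mul_comm]
    · have h3 : sgnOn (({u} : Finset Z2) ×ˢ (Finset.univ : Finset ι)) (eP E (swap a b)) = 1 := by
        apply sgnOn_of_fix
        rintro ⟨x, f⟩ hx
        simp only [Finset.mem_product, Finset.mem_singleton, Finset.mem_univ, and_true] at hx
        subst hx
        exact eP_apply_notMem hE
      rw [h3, if_neg hE, one_mul]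

theorem stmtC979 : StmtC := by
  intro T Th Tv Tf _ ι _ _ M hM Y a b hab
  have hrange : Sig (ι := ι) M Y a b = Set.range (fun P : Set (Bool × Bool × Bool × T) =>
      eP (ι := ι) (posSet M Y P) (swap a b)) := by
    ext g
    constructor
    · rintro ⟨P, rfl⟩
      exact ⟨P, rfl⟩
    · rintro ⟨P, rfl⟩
      exact ⟨P, rfl⟩
  refine ⟨?_, ?_, ?_, ?_⟩
  · rw [hrange]
    exact Set.finite_range _
  · rw [hrange, ← Set.image_univ]
    refine (Set.ncard_image_le Set.finite_univ).trans ?_
    rw [Set.ncard_univ, Nat.card_congr (Equiv.refl (Set (Bool × Bool × Bool × T)))]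
    have h1 : Nat.card (Set (Bool × Bool × Bool × T)) = 2 ^ Nat.card (Bool × Bool × Bool × T) := by
      have := Fintype.ofFinite T
      classical
      rw [Nat.card_eq_fintype_card, Nat.card_eq_fintype_card, Fintype.card_set]
    rw [h1]
    simp only [Nat.card_prod, Nat.card_eq_fintype_card (α := Bool), Fintype.card_bool]
    apply Nat.pow_le_pow_right (by norm_num)
    omega
  · intro P P'
    rw [eP_mul_symmDiff]
    congr 1
    ext u
    rw [Set.mem_symmDiff]
    change _ ↔ isPos M u ∧ (hf M u.1, hf M u.2, sH M u, Y.ty (aV M u)) ∈ symmDiff P P'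
    rw [Set.mem_symmDiff]
    change (((isPos M u ∧ _ ∈ P) ∧ ¬ (isPos M u ∧ _ ∈ P')) ∨
      ((isPos M u ∧ _ ∈ P') ∧ ¬ (isPos M u ∧ _ ∈ P))) ↔ _
    tauto
  · intro P D
    exact sgnOn_eP_swap _ hab D

end Vale.Agent.P196.Cut
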