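import Vale.Agent.P196.H366.Qfg

/-! P196, cutting: `StmtE` (conservation of the crossing numbers). -/

set_option linter.unusedSectionVars false

namespace Vale.Agent.P196.Cut

open Equiv Vale.Agent.P196.H366

section tri

variable {T Th Tv Tf : Type} [Finite T] [Finite Th] [Finite Tv] [Finite Tf]
  {ι : Type} [Fintype ι] [DecidableEq ι] {M : ℤ} {hM : 0 < M} {Y : TySys T Th Tv Tf}
  {s r0 r1 d : ℤ} {v e f : Perm (Z2 × ι)}

theorem sV_ne_iff {u u' : Z2} : sV M u' ≠ sV M u ↔ sH M u' ≠ sH M u := by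
  unfold sV
  cases sH M u' <;> cases sH M u <;> simp

namespace Tri

/-- a point which changes side under `v` crosses no line and no midline -/
theorem v_quad (h : Tri hM Y s r0 r1 d v e f) (z : Z2 × ι) (hs : sH M (v z).1 ≠ sH M z.1) :
    Cut.hf M (v z).1.1 = Cut.hf M z.1.1 ∧ Cut.hf M (v z).1.2 = Cut.hf M z.1.2 := by
  have hz : ¬ mx M z.1 < r0 := fun hh => hs (by rw [h.v_near z hh])
  have l1 := Cut.dI_lip hM (h.v_disp z).1
  have l2 := Cut.dI_lip hM (h.v_disp z).2
  have hd : (dI M z.1.1 ≤ dI M z.1.2 + 2 * d) ∧ (dI M z.1.2 ≤ dI M z.1.1 + 2 * d) := by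
    cases h1 : sH M (v z).1 <;> cases h2 : sH M z.1 <;> rw [h1, h2] at hs
    · exact absurd rfl hs
    · rw [sH_eq_false] at h1; rw [sH_eq_true] at h2; omega
    · rw [sH_eq_true] at h1; rw [sH_eq_false] at h2; omega
    · exact absurd rfl hs
  have := h.s_r0; have := h.s_pos; have := h.d_nonneg
  have hV := h.v_aV z
  unfold mx at hz
  constructor
  · apply hf_eq_of hM
    have e1 : fI M (v z).1.1 = fI M z.1.1 := fI_eq_of_lt hM (h.v_disp z).1 (by omega)
    have e2 : vI M (v z).1.1 = vI M z.1.1 := congrArg Prod.fst hV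
    omega
  · apply hf_eq_of hM
    have e1 : fI M (v z).1.2 = fI M z.1.2 := fI_eq_of_lt hM (h.v_disp z).2 (by omega)
    have e2 : vI M (v z).1.2 = vI M z.1.2 := congrArg Prod.snd hV
    omega

/-- a point which changes side under `f` is near a vertex -/
theorem f_cross (h : Tri hM Y s r0 r1 d v e f) (z : Z2 × ι) (hs : sH M (f z).1 ≠ sH M z.1) :
    mx M z.1 < r1 := by
  by_contra hz
  apply hs
  rw [h.sH_f, h.v_inv_far z (by omega)]

theorem qfg (h : Tri hM Y s r0 r1 d v e f) : Qfg M v f where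
  hM := hM
  aV_v := h.v_aV
  v_H z hs := by
    by_cases h2 : sH M (v z).1 = sH M z.1
    · apply hf_eq_of hM
      have e1 := h.v_fI1 z (by rw [← h2]; exact hs)
      have e2 : vI M (v z).1.1 = vI M z.1.1 := congrArg Prod.fst (h.v_aV z)
      omega
    · exact (h.v_quad z h2).1
  v_V z hs := by
    by_cases h2 : sH M (v z).1 = sH M z.1
    · apply hf_eq_of hM
      have e1 := h.v_fI2 z (by rw [← h2]; exact hs)
      have e2 : vI M (v z).1.2 = vI M z.1.2 := congrArg Prod.snd (h.v_aV z)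
      omega
    · exact (h.v_quad z h2).2
  v_quad z hs := h.v_quad z (sV_ne_iff.1 hs)
  fF := h.f_aF
  f_H z hs := by
    apply hf_eq_of hM
    have e1 : fI M (f z).1.2 = fI M z.1.2 := congrArg Prod.snd (h.f_aF z)
    have e2 : vI M (f z).1.2 = vI M z.1.2 := by
      by_cases h2 : sH M (f z).1 = sH M z.1
      · exact h.f_vI2 z (by rw [← h2]; exact hs)
      · have h3 := h.f_cross z h2
        apply vI_eq_of_lt hM (h.f_disp z).2
        have h1 : dI M z.1.2 ≤ mx M z.1 := le_max_right _ _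
        have := h.r1_M; have := h.s_pos; have := h.d_nonneg
        omega
    omega
  f_V z hs := by
    apply hf_eq_of hM
    have e1 : fI M (f z).1.1 = fI M z.1.1 := congrArg Prod.fst (h.f_aF z)
    have e2 : vI M (f z).1.1 = vI M z.1.1 := by
      by_cases h2 : sH M (f z).1 = sH M z.1
      · exact h.f_vI1 z (by rw [← h2]; exact hs)
      · have h3 := h.f_cross z h2
        apply vI_eq_of_lt hM (h.f_disp z).1
        have h1 : dI M z.1.1 ≤ mx M z.1 := le_max_left _ _
        have := h.r1_M; have := h.s_pos; have := h.d_nonneg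
        omega
    omega
  sH_f := h.sH_f

end Tri

/-- `crH` on a quadrant cell is the crossing number `cr`. -/
theorem crH_eq_cr (hM : 0 < M) (Y : TySys T Th Tv Tf) (g : Perm (Z2 × ι)) (p : Z2)
    (j : Bool × Bool) :
    crH M ((Zsys hM Y).cell ι p j) g =
      cr M g (p + ((if j.1 then 1 else 0), (if j.2 then 1 else 0))) j.1 j.2 := by
  unfold cr crH
  rw [finsum_eq_sum_of_support_subset (s := (Zsys hM Y).cell ι p j)]
  · rw [Finset.card_filter, Finset.card_filter]
    push_cast
    rw [← Finset.sum_sub_distrib]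
    refine Finset.sum_congr rfl fun z hz => ?_
    have h1 := ((Zsys hM Y).mem_cell).1 hz
    have h2 : aF M z.1 = p := h1.1
    have h3 : (hf M z.1.1, hf M z.1.2) = j := Option.some.inj h1.2
    rw [if_pos ((Cfg.quad_face hM z.1 p j.1 j.2).2 ⟨h2, congrArg Prod.fst h3,
      congrArg Prod.snd h3⟩)]
    unfold sV
    cases sH M z.1 <;> cases sH M (g z).1 <;> simp
  · intro z hz
    by_contra hcon
    apply hz
    refine if_neg (fun hh => hcon ?_)
    have h1 := (Cfg.quad_face hM z.1 p j.1 j.2).1 hh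
    refine Finset.mem_coe.2 (((Zsys hM Y).mem_cell).2 ⟨h1.1, ?_⟩)
    change some (hf M z.1.1, hf M z.1.2) = some j
    rw [h1.2.1, h1.2.2]

end tri

theorem stmtE : StmtE := by
  intro T Th Tv Tf _ _ _ _ ι _ _ M hM s r0 r1 d Y v e f h h0 p j
  rw [crH_eq_cr] at h0 ⊢
  have e0 : (((0 : ℤ), (0 : ℤ)) : Z2) = 0 := rfl
  simp only [Bool.false_eq_true, if_false] at h0
  rw [e0, add_zero] at h0
  rw [h.qfg.cr_f, h.qfg.cr_v_eq_zero h0, neg_zero]

end Vale.Agent.P196.Cut
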