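import Vale.Agent.P196.Cut.FactDefs
import Vale.Agent.P196.Cut.Glue

/-!
# P196, cutting: uncrossing (lemma F of the factorisation theorem)
-/

set_option linter.unusedSectionVars false

noncomputable section

namespace Vale.Agent.P196.Cut

open Equiv Vale.Agent.P196.S0

variable {T Th Tv Tf : Type} {ι : Type} [Fintype ι] [DecidableEq ι]

theorem mx_add {M : ℤ} (u k : Z2) : mx M (u + (2 * M) • k) = mx M u := by
  have h1 : dI M (u + (2 * M) • k).1 = dI M u.1 := by simpa using dI_add u.1 k.1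
  have h2 : dI M (u + (2 * M) • k).2 = dI M u.2 := by simpa using dI_add u.2 k.2
  unfold mx
  rw [h1, h2]

theorem mx_add' {M : ℤ} (u k : Z2) : mx M ((2 * M) • k + u) = mx M u := by
  rw [add_comm, mx_add]

theorem sH_add' {M : ℤ} (u k : Z2) : sH M ((2 * M) • k + u) = sH M u := by
  rw [add_comm, sH_add]

theorem isPos_addF {M : ℤ} (u k : Z2) : isPos M ((2 * M) • k + u) ↔ isPos M u := by
  have h1 : dI M ((2 * M) • k + u).1 = dI M u.1 := by
    rw [add_comm]; simpa using dI_add u.1 k.1
  have h2 : dI M ((2 * M) • k + u).2 = dI M u.2 := by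
    rw [add_comm]; simpa using dI_add u.2 k.2
  unfold isPos
  rw [h1, h2]

/-- The rhombus part preserves the side. -/
theorem sH_of_mem_RS {M : ℤ} (hM : 0 < M) (s : ℤ) (Y : TySys T Th Tv Tf) [Finite T] [Finite Th]
    [Finite Tv] [Finite Tf] {e : Perm (Z2 × ι)} (he : e ∈ (RSsys hM s Y).G ι) (z : Z2 × ι) :
    sH M (e z).1 = sH M z.1 := by
  have h := ((RSsys hM s Y).isIn_of_mem he).acts
  by_cases hz : hR M z.1 < s
  · have h1 : (RSsys hM s Y).lab z.1 = some (sH M z.1) := if_pos hz
    have h2 := (h.cell z _ h1).2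
    have h3 : (RSsys hM s Y).lab (e z).1 =
      if hR M (e z).1 < s then some (sH M (e z).1) else none := rfl
    rw [h3] at h2
    split_ifs at h2
    exact Option.some.inj h2
  · have h1 : (RSsys hM s Y).lab z.1 = none := if_neg hz
    rw [h.none z h1]

/-- Where `f` crosses the side, the position is at intermediate distance from the vertices. -/
theorem mx_of_cross {M : ℤ} {hM : 0 < M} {Y : TySys T Th Tv Tf} [Finite T] [Finite Th]
    [Finite Tv] [Finite Tf] {s r0 r1 d : ℤ} {v e f : Perm (Z2 × ι)}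
    (h : Tri hM Y s r0 r1 d v e f) (z : Z2 × ι) (hz : sH M (f z).1 ≠ sH M z.1) :
    r0 ≤ mx M z.1 ∧ mx M z.1 < r1 := by
  constructor
  · by_contra hlt
    apply hz
    rw [h.f_near z (not_le.1 hlt)]
  · by_contra hlt
    apply hz
    have h1 : v z = z := h.v_far z (not_lt.1 hlt)
    have h2 : v (e (f z)) = z := by
      have := congrArg (fun g : Perm (Z2 × ι) => g z) h.prod
      simpa [Perm.mul_apply] using this
    have h3 : e (f z) = z := v.injective (h2.trans h1.symm)
    have h4 := sH_of_mem_RS hM s Y h.he (f z)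
    rw [h3] at h4
    exact h4.symm

/-- The fixed position on the side `H` of the quadrant of label `j`. -/
def v0 (M : ℤ) (j : Bool × Bool) : Z2 :=
  (if j.1 then M else M - 1, if j.2 then 2 * M - 1 - M / 2 else M / 2)

theorem v0_spec {M : ℤ} (hM : 2 ≤ M) (j : Bool × Bool) :
    aF M (v0 M j) = 0 ∧ hf M (v0 M j).1 = j.1 ∧ hf M (v0 M j).2 = j.2 ∧
      dI M (v0 M j).1 = M - 1 ∧ dI M (v0 M j).2 = M / 2 := by
  have e1 : ∀ x : ℤ, 0 ≤ x → x < 2 * M → x % (2 * M) = x ∧ x / (2 * M) = 0 := fun x h1 h2 =>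
    ⟨Int.emod_eq_of_lt h1 h2, Int.ediv_eq_zero_of_lt h1 h2⟩
  have hd : M / 2 < M ∧ 0 ≤ M / 2 ∧ M ≤ 2 * M - 1 - M / 2 ∧ 2 * M - 1 - M / 2 < 2 * M := by
    omega
  obtain ⟨h1, h2, h3, h4⟩ := hd
  obtain ⟨a1, a2⟩ := e1 M (by omega) (by omega)
  obtain ⟨b1, b2⟩ := e1 (M - 1) (by omega) (by omega)
  obtain ⟨c1, c2⟩ := e1 (M / 2) (by omega) (by omega)
  obtain ⟨d1, d2⟩ := e1 (2 * M - 1 - M / 2) (by omega) (by omega)
  obtain ⟨j1, j2⟩ := j
  unfold v0 aF hf dI fI
  refine ⟨?_, ?_, ?_, ?_, ?_⟩
  · cases j1 <;> cases j2 <;> simp [a2, b2, c2, d2]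
  · cases j1 <;> simp [a1, b1]
  · cases j2 <;> simp [c1, d1] <;> omega
  · cases j1
    · simp only [Bool.false_eq_true, if_false, b1]
      rw [if_pos (by omega)]
    · simp only [if_true, a1]
      rw [if_neg (by omega)]
      omega
  · cases j2
    · simp only [Bool.false_eq_true, if_false, c1]
      rw [if_pos (by omega)]
    · simp only [if_true, d1]
      rw [if_neg (by omega)]
      omega

theorem stmtF : StmtF := by
  classical
  intro T Th Tv Tf _ _ _ _ ι _ _ M hM s r0 r1 d Y v e f a b hab h hcr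
  set C := Zsys hM Y with hC
  by_cases hr : r1 ≤ r0
  · -- no crossing at all
    refine ⟨1, one_mem _, fun z => ?_, fun z hz => absurd rfl hz⟩
    by_contra hne
    obtain ⟨h1, h2⟩ := mx_of_cross h z hne
    omega
  have hd0 := h.d_nonneg
  have hs0 := h.s_pos
  have hsr := h.s_r0
  have hrM := h.r1_M
  have hM2 : 2 ≤ M := by omega
  have hfA := ((Fsys hM Y).isIn_of_mem h.hf).acts
  -- `f` is equivariant
  have hfe : ∀ (p p' : Z2) (j : Bool × Bool) (s : C.D j × ι), Y.tf p = Y.tf p' →
      f ((2 * M) • p + (s.1 : Z2), s.2) =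
        ((f ((2 * M) • p' + (s.1 : Z2), s.2)).1 + (2 * M) • (p - p'),
          (f ((2 * M) • p' + (s.1 : Z2), s.2)).2) := by
    intro p p' j s ht
    have h1 : aF M ((2 * M) • p' + (s.1 : Z2)) = p' := C.anch_zero_add s.1.2 p'
    have h2 := hfA.equi ((2 * M) • p' + (s.1 : Z2), s.2) () (p - p') rfl (by
      change Y.tf (aF M ((2 * M) • p' + (s.1 : Z2)) + (p - p')) =
        Y.tf (aF M ((2 * M) • p' + (s.1 : Z2)))
      rw [h1, add_sub_cancel, ht])
    rw [← h2]
    congr 2
    simp only
    rw [smul_sub]; abel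
  -- representatives
  have hrep : ∀ θ : Tf, ∃ p0 : Z2, (∃ p, Y.tf p = θ) → Y.tf p0 = θ := by
    intro θ
    by_cases hp : ∃ p, Y.tf p = θ
    · obtain ⟨p, hp⟩ := hp
      exact ⟨p, fun _ => hp⟩
    · exact ⟨0, fun h => absurd h hp⟩
  choose rep hrep using hrep
  -- the permutations of the cells
  have hσ : ∀ (j : Bool × Bool) (θ : Tf), ∃ σ : Perm (C.D j × ι), Perm.sign σ = 1 ∧
      (∀ s, sH M (f ((2 * M) • rep θ + ((σ s).1 : Z2), (σ s).2)).1 = sH M (s.1 : Z2)) ∧
      ∀ s, σ s ≠ s → (mx M (s.1 : Z2) < r1 ∧ mx M ((σ s).1 : Z2) < r1 ∧ r0 ≤ mx M (s.1 : Z2) ∧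
        r0 ≤ mx M ((σ s).1 : Z2)) ∨ (isPos M (s.1 : Z2) ∧ (σ s).1 = s.1) := by
    intro j θ
    let F : C.D j × ι → Bool := fun s => sH M (f ((2 * M) • rep θ + (s.1 : Z2), s.2)).1
    let A : Finset (C.D j × ι) := Finset.univ.filter
      (fun s => sH M (s.1 : Z2) = true ∧ F s = false)
    let B : Finset (C.D j × ι) := Finset.univ.filter
      (fun s => sH M (s.1 : Z2) = false ∧ F s = true)
    have hmx : ∀ s : C.D j × ι, F s ≠ sH M (s.1 : Z2) →
        r0 ≤ mx M (s.1 : Z2) ∧ mx M (s.1 : Z2) < r1 := by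
      intro s hs
      have := mx_of_cross h ((2 * M) • rep θ + (s.1 : Z2), s.2) (by
        simp only [sH_add']
        exact hs)
      simpa only [mx_add'] using this
    have hmap : ∀ (x y : Bool), (Finset.univ.filter
        (fun s : C.D j × ι => sH M (s.1 : Z2) = x ∧ F s = y)).card =
        ((C.cell ι (rep θ) j).filter
          (fun z => sH M z.1 = x ∧ sH M (f z).1 = y)).card := by
      intro x y
      apply Finset.card_bij (fun s _ => ((2 * M) • rep θ + (s.1 : Z2), s.2))
      · intro s hs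
        rw [Finset.mem_filter] at hs ⊢
        refine ⟨(C.mem_cell_iff _ _ _).2 ⟨s, rfl⟩, ?_, hs.2.2⟩
        simp only [sH_add']
        exact hs.2.1
      · rintro ⟨v, f⟩ _ ⟨v', f'⟩ _ h
        simp only [Prod.mk.injEq, add_right_inj] at h
        exact Prod.ext (Subtype.ext h.1) h.2
      · intro z hz
        rw [Finset.mem_filter] at hz
        obtain ⟨s, rfl⟩ := (C.mem_cell_iff _ _ _).1 hz.1
        refine ⟨s, ?_, rfl⟩
        rw [Finset.mem_filter]
        refine ⟨Finset.mem_univ _, ?_, hz.2.2⟩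
        have := hz.2.1
        simpa only [sH_add'] using this
    have hcard : A.card = B.card := by
      have h0 := hcr (rep θ) j
      unfold crH at h0
      rw [← hmap true false, ← hmap false true] at h0
      have : (A.card : ℤ) - (B.card : ℤ) = 0 := h0
      omega
    have hdis : Disjoint A B := by
      rw [Finset.disjoint_left]
      intro s h1 h2
      rw [Finset.mem_filter] at h1 h2
      rw [h1.2.1] at h2
      exact absurd h2.2.1 (by simp)
    obtain ⟨τ, hτA, hτB, hτN⟩ := exists_exchange A B hcard hdis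
    have hmA : ∀ s ∈ A, sH M (s.1 : Z2) = true ∧ F s = false := fun s hs =>
      (Finset.mem_filter.1 hs).2
    have hmB : ∀ s ∈ B, sH M (s.1 : Z2) = false ∧ F s = true := fun s hs =>
      (Finset.mem_filter.1 hs).2
    have hN : ∀ s, s ∉ A → s ∉ B → F s = sH M (s.1 : Z2) := by
      intro s h1 h2
      by_contra hne
      cases hs : sH M (s.1 : Z2)
      · apply h2
        rw [Finset.mem_filter]
        refine ⟨Finset.mem_univ _, hs, ?_⟩
        rw [hs] at hne
        simpa using hne
      · apply h1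
        rw [Finset.mem_filter]
        refine ⟨Finset.mem_univ _, hs, ?_⟩
        rw [hs] at hne
        simpa using hne
    have hcross : ∀ s, F (τ s) = sH M (s.1 : Z2) := by
      intro s
      by_cases h1 : s ∈ A
      · rw [(hmB _ (hτA s h1)).2, (hmA s h1).1]
      · by_cases h2 : s ∈ B
        · rw [(hmA _ (hτB s h2)).2, (hmB s h2).1]
        · rw [hτN s h1 h2, hN s h1 h2]
    have hAmx : ∀ s, s ∈ A ∨ s ∈ B → r0 ≤ mx M (s.1 : Z2) ∧ mx M (s.1 : Z2) < r1 := by
      rintro s (hs | hs)
      · apply hmx s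
        rw [(hmA s hs).1, (hmA s hs).2]
        simp
      · apply hmx s
        rw [(hmB s hs).1, (hmB s hs).2]
        simp
    have hmove : ∀ s, τ s ≠ s → (mx M (s.1 : Z2) < r1 ∧ mx M ((τ s).1 : Z2) < r1 ∧
        r0 ≤ mx M (s.1 : Z2) ∧ r0 ≤ mx M ((τ s).1 : Z2)) := by
      intro s hs
      by_cases h1 : s ∈ A
      · have := hAmx s (Or.inl h1)
        have h3 := hAmx _ (Or.inr (hτA s h1))
        exact ⟨this.2, h3.2, this.1, h3.1⟩
      · by_cases h2 : s ∈ B
        · have := hAmx s (Or.inr h2)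
          have h3 := hAmx _ (Or.inl (hτB s h2))
          exact ⟨this.2, h3.2, this.1, h3.1⟩
        · exact absurd (hτN s h1 h2) hs
    rcases Int.units_eq_one_or (Perm.sign τ) with hs | hs
    · exact ⟨τ, hs, hcross, fun s hs => Or.inl (hmove s hs)⟩
    · -- correct the sign
      obtain ⟨g1, g2, g3, g4, g5⟩ := v0_spec hM2 j
      have hv0 : v0 M j ∈ C.D j := by
        rw [C.mem_D]
        refine ⟨g1, ?_⟩
        change some (hf M (v0 M j).1, hf M (v0 M j).2) = some j
        rw [g2, g3]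
      have hpos : isPos M (v0 M j) := Or.inl ⟨g4, g5⟩
      have hmx0 : r1 ≤ mx M (v0 M j) := by
        unfold mx
        rw [g4, g5]
        have : r1 ≤ M - 1 := by omega
        exact this.trans (le_max_left _ _)
      let x0 : C.D j := ⟨v0 M j, hv0⟩
      have hnA : ∀ c : ι, (x0, c) ∉ A ∧ (x0, c) ∉ B := by
        intro c
        constructor
        · intro hc
          have := (hAmx _ (Or.inl hc)).2
          exact absurd hmx0 (not_le.2 this)
        · intro hc
          have := (hAmx _ (Or.inr hc)).2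
          exact absurd hmx0 (not_le.2 this)
      have hfix : ∀ c : ι, τ (x0, c) = (x0, c) := fun c => hτN _ (hnA c).1 (hnA c).2
      have hne : ((x0, a) : C.D j × ι) ≠ (x0, b) := fun hh => hab (congrArg Prod.snd hh)
      refine ⟨τ * swap (x0, a) (x0, b), ?_, ?_, ?_⟩
      · rw [map_mul, Perm.sign_swap hne, hs]
        rfl
      · intro s
        rw [Perm.mul_apply, swap_apply_def]
        split_ifs with h1 h2
        · rw [h1]
          have := hcross (x0, b)
          exact this
        · rw [h2]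
          have := hcross (x0, a)
          exact this
        · exact hcross s
      · intro s
        rw [Perm.mul_apply, swap_apply_def]
        split_ifs with h1 h2
        · intro _
          right
          rw [hfix b, h1]
          exact ⟨hpos, rfl⟩
        · intro _
          right
          rw [hfix a, h2]
          exact ⟨hpos, rfl⟩
        · intro hh
          exact Or.inl (hmove s hh)
  choose σ hσ1 hσ2 hσ3 using hσ
  obtain ⟨κ, hκ, hκa⟩ := C.glue_mem σ hσ1
  have hdec : ∀ z : Z2 × ι, ∃ (j : Bool × Bool) (v : C.D j),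
      z = ((2 * M) • C.anch z.1 + (v : Z2), z.2) := by
    intro z
    obtain ⟨v, hv⟩ := C.exists_dec (z := z) (j := (hf M z.1.1, hf M z.1.2)) rfl
    exact ⟨_, v, hv⟩
  refine ⟨κ, hκ, ?_, ?_⟩
  · intro z
    obtain ⟨j, v, hv⟩ := hdec z
    set p := C.anch z.1 with hp
    have h1 := hκa p j (v, z.2)
    simp only at h1
    rw [← hv] at h1
    have ht : Y.tf (rep (C.typ j p)) = Y.tf p := hrep _ ⟨p, rfl⟩
    have h2 := hfe p (rep (C.typ j p)) j (σ j (C.typ j p) (v, z.2)) ht.symm
    rw [h1, h2]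
    simp only [sH_add]
    rw [hσ2 j (C.typ j p) (v, z.2)]
    have h3 : z.1 = (2 * M) • p + (v : Z2) := congrArg Prod.fst hv
    rw [h3, sH_add']
  · intro z hz
    obtain ⟨j, v, hv⟩ := hdec z
    set p := C.anch z.1 with hp
    have h1 := hκa p j (v, z.2)
    simp only at h1
    rw [← hv] at h1
    have h3 : z.1 = (2 * M) • p + (v : Z2) := congrArg Prod.fst hv
    have hne : σ j (C.typ j p) (v, z.2) ≠ (v, z.2) := by
      intro hh
      apply hz
      rw [h1, hh]
      exact hv.symm
    rcases hσ3 j (C.typ j p) (v, z.2) hne with ⟨c1, c2, c3, c4⟩ | ⟨c1, c2⟩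
    · left
      rw [h1, h3]
      simp only [mx_add']
      exact ⟨c1, c2, c3, c4⟩
    · right
      rw [h1, h3, isPos_addF]
      refine ⟨c1, ?_⟩
      simp only
      rw [c2]

end Vale.Agent.P196.Cut
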