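import Vale.Agent.P196.Cut.Geo

/-!
# FACT, lemma (G): after uncrossing, `κ⁻¹ * v` preserves the sectors and `f * κ` the triangles
-/

set_option linter.unusedSectionVars false

noncomputable section

namespace Vale.Agent.P196.Cut

open Equiv Vale.Agent.P196.S0

variable {M : ℤ} {T Th Tv Tf : Type} [Finite T] [Finite Th] [Finite Tv] [Finite Tf]
  {ι : Type} [Fintype ι] [DecidableEq ι] {hM : 0 < M} {Y : TySys T Th Tv Tf} {s r0 r1 d : ℤ}
  {v e f κ : Perm (Z2 × ι)}

/-- elements of the quadrant group preserve face and vertex cells -/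
theorem z_cell {g : Perm (Z2 × ι)} (hg : (Zsys hM Y).Acts g) (z : Z2 × ι) :
    aF M (g z).1 = aF M z.1 ∧ hf M (g z).1.1 = hf M z.1.1 ∧ hf M (g z).1.2 = hf M z.1.2 := by
  obtain ⟨h1, h2⟩ := hg.cell z (hf M z.1.1, hf M z.1.2) rfl
  have h3 : (some (hf M (g z).1.1, hf M (g z).1.2) : Option (Bool × Bool)) =
    some (hf M z.1.1, hf M z.1.2) := h2
  have h4 := Option.some.inj h3
  exact ⟨h1, congrArg Prod.fst h4, congrArg Prod.snd h4⟩

theorem z_aV {g : Perm (Z2 × ι)} (hg : (Zsys hM Y).Acts g) (z : Z2 × ι) :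
    aV M (g z).1 = aV M z.1 := by
  obtain ⟨h1, h2, h3⟩ := z_cell hg z
  refine Prod.ext ?_ ?_
  · exact vI_eq_of hM (congrArg Prod.fst h1) h2
  · exact vI_eq_of hM (congrArg Prod.snd h1) h3

/-- The hypotheses on `κ`. -/
structure Unc (hM : 0 < M) (Y : TySys T Th Tv Tf) (r0 r1 : ℤ) (f κ : Perm (Z2 × ι)) : Prop where
  mem : κ ∈ (Zsys hM Y).G ι
  side : ∀ z, sH M (f (κ z)).1 = sH M z.1
  move : ∀ z, κ z ≠ z →
    (mx M z.1 < r1 ∧ mx M (κ z).1 < r1 ∧ r0 ≤ mx M z.1 ∧ r0 ≤ mx M (κ z).1) ∨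
      (isPos M z.1 ∧ (κ z).1 = z.1)

namespace Unc

theorem acts (h : Unc hM Y r0 r1 f κ) : (Zsys hM Y).Acts κ :=
  ((Zsys hM Y).isIn_of_mem h.mem).acts

/-- `f * κ` preserves the triangles -/
theorem fk_cell (h : Unc hM Y r0 r1 f κ) (t : Tri hM Y s r0 r1 d v e f) (z : Z2 × ι) :
    aF M (f (κ z)).1 = aF M z.1 ∧ sH M (f (κ z)).1 = sH M z.1 ∧
    (sH M z.1 = true → vI M (f (κ z)).1.2 = vI M z.1.2) ∧
    (sH M z.1 = false → vI M (f (κ z)).1.1 = vI M z.1.1) := by
  obtain ⟨k1, k2, k3⟩ := z_cell h.acts z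
  have kV := z_aV h.acts z
  have kV1 : vI M (κ z).1.1 = vI M z.1.1 := congrArg Prod.fst kV
  have kV2 : vI M (κ z).1.2 = vI M z.1.2 := congrArg Prod.snd kV
  refine ⟨(t.f_aF _).trans k1, h.side z, ?_, ?_⟩
  · intro hz
    by_cases hk : (κ z).1 = z.1
    · rw [← kV2]
      exact t.f_vI2 (κ z) (by rw [hk]; exact hz)
    · rcases h.move z (fun hh => hk (congrArg Prod.fst hh)) with ⟨h1, h2, _, _⟩ | ⟨_, h2⟩
      · rw [← kV2]
        apply vI_eq_of_lt hM (t.f_disp (κ z)).2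
        have h5 : dI M (κ z).1.2 ≤ mx M (κ z).1 := le_max_right _ _
        have := t.r1_M
        have := t.s_pos
        have := t.d_nonneg
        omega
      · exact absurd h2 hk
  · intro hz
    by_cases hk : (κ z).1 = z.1
    · rw [← kV1]
      exact t.f_vI1 (κ z) (by rw [hk]; exact hz)
    · rcases h.move z (fun hh => hk (congrArg Prod.fst hh)) with ⟨h1, h2, _, _⟩ | ⟨_, h2⟩
      · rw [← kV1]
        apply vI_eq_of_lt hM (t.f_disp (κ z)).1
        have h5 : dI M (κ z).1.1 ≤ mx M (κ z).1 := le_max_left _ _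
        have := t.r1_M
        have := t.s_pos
        have := t.d_nonneg
        omega
      · exact absurd h2 hk

/-- `f * κ` preserves the rhombi -/
theorem fk_aR (h : Unc hM Y r0 r1 f κ) (t : Tri hM Y s r0 r1 d v e f) (z : Z2 × ι) :
    aR M (f (κ z)).1 = aR M z.1 := by
  obtain ⟨h1, h2, h3, h4⟩ := h.fk_cell t z
  have h11 : fI M (f (κ z)).1.1 = fI M z.1.1 := congrArg Prod.fst h1
  have h12 : fI M (f (κ z)).1.2 = fI M z.1.2 := congrArg Prod.snd h1
  unfold aR
  rw [h2]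
  cases hz : sH M z.1
  · rw [if_neg (by simp), if_neg (by simp), h4 hz, h12]
  · rw [if_pos rfl, if_pos rfl, h3 hz, h11]

/-- translation equivariance of `f * κ` with respect to the face types -/
theorem fk_equi (h : Unc hM Y r0 r1 f κ) (t : Tri hM Y s r0 r1 d v e f) (z : Z2 × ι) (k : Z2)
    (hk : Y.tf (aF M z.1 + k) = Y.tf (aF M z.1)) :
    f (κ (z.1 + (2 * M) • k, z.2)) = ((f (κ z)).1 + (2 * M) • k, (f (κ z)).2) := by
  have h1 := h.acts.equi z (hf M z.1.1, hf M z.1.2) k rfl hk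
  rw [h1]
  exact t.f_acts.equi (κ z) () k rfl (by
    change Y.tf (aF M (κ z).1 + k) = Y.tf (aF M (κ z).1)
    rw [(z_cell h.acts z).1]
    exact hk)

theorem acts_fk (h : Unc hM Y r0 r1 f κ) (t : Tri hM Y s r0 r1 d v e f) :
    (Qsys hM Y).Acts (f * κ) := by
  refine ⟨?_, ?_, ?_⟩
  · intro z hz
    exact absurd hz (by simp [Qsys, CS.ofBox])
  · intro z j hj
    obtain ⟨h1, h2, h3, h4⟩ := h.fk_cell t z
    refine ⟨h1, ?_⟩
    have hj' : (some (sH M z.1, if sH M z.1 then hf M z.1.2 else hf M z.1.1) :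
      Option (Bool × Bool)) = some j := hj
    rw [← hj']
    change (some (sH M (f (κ z)).1,
      if sH M (f (κ z)).1 then hf M (f (κ z)).1.2 else hf M (f (κ z)).1.1) :
      Option (Bool × Bool)) = _
    have h11 : fI M (f (κ z)).1.1 = fI M z.1.1 := congrArg Prod.fst h1
    have h12 : fI M (f (κ z)).1.2 = fI M z.1.2 := congrArg Prod.snd h1
    rw [h2]
    cases hz : sH M z.1
    · have : hf M (f (κ z)).1.1 = hf M z.1.1 := hf_eq_of hM (by rw [h4 hz, h11]; simp)
      simp [this]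
    · have : hf M (f (κ z)).1.2 = hf M z.1.2 := hf_eq_of hM (by rw [h3 hz, h12]; simp)
      simp [this]
  · intro z j k hj hk
    exact h.fk_equi t z k hk

/-- `κ⁻¹ * v` preserves the sectors. -/
theorem kv_cell (h : Unc hM Y r0 r1 f κ) (t : Tri hM Y s r0 r1 d v e f) (z : Z2 × ι) :
    aV M (κ⁻¹ (v z)).1 = aV M z.1 ∧ sH M (κ⁻¹ (v z)).1 = sH M z.1 ∧
    (sH M z.1 = true → fI M (κ⁻¹ (v z)).1.1 = fI M z.1.1) ∧
    (sH M z.1 = false → fI M (κ⁻¹ (v z)).1.2 = fI M z.1.2) := by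
  have k1 := (z_cell h.acts.inv (v z)).1
  have kV := z_aV h.acts.inv (v z)
  refine ⟨kV.trans (t.v_aV z), ?_, ?_, ?_⟩
  · have h1 := h.side (κ⁻¹ (v z))
    rw [← h1]
    have h2 : κ (κ⁻¹ (v z)) = v z := by simp
    rw [h2]
    exact t.sH_f_v z
  · intro hz
    have h2 : fI M (κ⁻¹ (v z)).1.1 = fI M (v z).1.1 := congrArg Prod.fst k1
    rw [h2, t.v_fI1 z hz]
  · intro hz
    have h2 : fI M (κ⁻¹ (v z)).1.2 = fI M (v z).1.2 := congrArg Prod.snd k1
    rw [h2, t.v_fI2 z hz]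

/-- the face type is determined by the edge type of the rhombus -/
theorem te_tf (hM : 0 < M) (u k : Z2)
    (hk : Y.te (sH M u) (aR M u + k) = Y.te (sH M u) (aR M u)) :
    Y.tf (aF M u + k) = Y.tf (aF M u) := by
  unfold TySys.te aR at hk
  cases hz : sH M u
  · simp only [hz, Bool.false_eq_true, if_false, Sum.inr.injEq] at hk
    cases hh : hf M u.1
    · have : vI M u.1 = fI M u.1 := by rw [vI_eq hM, hh]; simp
      rw [this] at hk
      exact Y.tv_tf _ _ hk
    · have hv : vI M u.1 = fI M u.1 + 1 := by rw [vI_eq hM, hh]; simp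
      rw [hv] at hk
      have h1 := Y.tv_tf' _ _ hk
      have e1 : (fI M u.1 + 1, fI M u.2) + k - (1, 0) = aF M u + k := by
        refine Prod.ext ?_ ?_
        · change fI M u.1 + 1 + k.1 - 1 = fI M u.1 + k.1
          ring
        · change fI M u.2 + k.2 - 0 = fI M u.2 + k.2
          ring
      have e2 : ((fI M u.1 + 1, fI M u.2) : Z2) - (1, 0) = aF M u := by
        refine Prod.ext ?_ ?_
        · change fI M u.1 + 1 - 1 = fI M u.1
          ring
        · change fI M u.2 - 0 = fI M u.2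
          ring
      rw [e1, e2] at h1
      exact h1
  · simp only [hz, if_true, Sum.inl.injEq] at hk
    cases hh : hf M u.2
    · have : vI M u.2 = fI M u.2 := by rw [vI_eq hM, hh]; simp
      rw [this] at hk
      exact Y.th_tf _ _ hk
    · have hv : vI M u.2 = fI M u.2 + 1 := by rw [vI_eq hM, hh]; simp
      rw [hv] at hk
      have h1 := Y.th_tf' _ _ hk
      have e1 : (fI M u.1, fI M u.2 + 1) + k - (0, 1) = aF M u + k := by
        refine Prod.ext ?_ ?_
        · change fI M u.1 + k.1 - 0 = fI M u.1 + k.1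
          ring
        · change fI M u.2 + 1 + k.2 - 1 = fI M u.2 + k.2
          ring
      have e2 : ((fI M u.1, fI M u.2 + 1) : Z2) - (0, 1) = aF M u := by
        refine Prod.ext ?_ ?_
        · change fI M u.1 - 0 = fI M u.1
          ring
        · change fI M u.2 + 1 - 1 = fI M u.2
          ring
      rw [e1, e2] at h1
      exact h1

theorem acts_kv (h : Unc hM Y r0 r1 f κ) (t : Tri hM Y s r0 r1 d v e f) :
    (Ssys hM Y).Acts (κ⁻¹ * v) := by
  have hcell : ∀ (z : Z2 × ι) (j : Bool × Bool), (Ssys hM Y).lab z.1 = some j →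
      (Ssys hM Y).anch ((κ⁻¹ * v) z).1 = (Ssys hM Y).anch z.1 ∧
        (Ssys hM Y).lab ((κ⁻¹ * v) z).1 = some j := by
    intro z j hj
    obtain ⟨h1, h2, h3, h4⟩ := h.kv_cell t z
    have h11 : vI M (κ⁻¹ (v z)).1.1 = vI M z.1.1 := congrArg Prod.fst h1
    have h12 : vI M (κ⁻¹ (v z)).1.2 = vI M z.1.2 := congrArg Prod.snd h1
    have hj' : (some (sH M z.1, if sH M z.1 then hf M z.1.1 else hf M z.1.2) :
      Option (Bool × Bool)) = some j := hj
    rw [← hj']
    change aR M (κ⁻¹ (v z)).1 = aR M z.1 ∧ (some (sH M (κ⁻¹ (v z)).1,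
      if sH M (κ⁻¹ (v z)).1 then hf M (κ⁻¹ (v z)).1.1 else hf M (κ⁻¹ (v z)).1.2) :
      Option (Bool × Bool)) = _
    rw [h2]
    unfold aR
    rw [h2]
    generalize κ⁻¹ (v z) = w at h1 h2 h3 h4 h11 h12 ⊢
    cases hz : sH M z.1
    · have : hf M w.1.2 = hf M z.1.2 := hf_eq_of hM (by rw [h4 hz, h12]; simp)
      simp [this, h11, h4 hz]
    · have : hf M w.1.1 = hf M z.1.1 := hf_eq_of hM (by rw [h3 hz, h11]; simp)
      simp [this, h12, h3 hz]
  have hinv : ∀ p j, Inv ((Ssys hM Y).cell ι p j) (κ⁻¹ * v) := by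
    intro p j
    apply inv_of_forall
    intro z hz
    rw [CS.mem_cell] at hz ⊢
    rw [← hz.1]
    exact hcell z j hz.2
  have hcell' : ∀ (z : Z2 × ι) (j : Bool × Bool), (Ssys hM Y).lab z.1 = some j →
      (Ssys hM Y).anch ((κ⁻¹ * v)⁻¹ z).1 = (Ssys hM Y).anch z.1 ∧
        (Ssys hM Y).lab ((κ⁻¹ * v)⁻¹ z).1 = some j := by
    intro z j hz
    have h1 : z ∈ (Ssys hM Y).cell ι ((Ssys hM Y).anch z.1) j := (CS.mem_cell _).2 ⟨rfl, hz⟩
    exact (CS.mem_cell _).1 (((hinv _ j).inv z).2 h1)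
  have hgi : ∀ z, (κ⁻¹ * v)⁻¹ z = e (f (κ z)) := by
    intro z
    rw [mul_inv_rev, inv_inv, Perm.mul_apply, Perm.inv_eq_iff_eq]
    exact (t.prod_apply (κ z)).symm
  have hacts : (Ssys hM Y).Acts (κ⁻¹ * v)⁻¹ := by
    refine ⟨?_, hcell', ?_⟩
    · intro z hz
      exact absurd hz (by simp [Ssys, CS.ofBox])
    · intro z j k hj hk
      have hj1 : j.1 = sH M z.1 := by
        have hj' : (some (sH M z.1, if sH M z.1 then hf M z.1.1 else hf M z.1.2) :
          Option (Bool × Bool)) = some j := hj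
        exact (congrArg Prod.fst (Option.some.inj hj')).symm
      have hk' : Y.te (sH M z.1) (aR M z.1 + k) = Y.te (sH M z.1) (aR M z.1) := by
        rw [← hj1]; exact hk
      rw [hgi, hgi, h.fk_equi t z k (te_tf hM z.1 k hk')]
      apply rs_equi t.e_acts
      rw [h.fk_aR t z, (h.fk_cell t z).2.1]
      exact hk'
  have := hacts.inv
  rwa [inv_inv] at this

end Unc

theorem stmtG : StmtG := by
  intro T Th Tv Tf _ _ _ _ ι _ _ M hM s r0 r1 d Y v e f κ t h1 h2 h3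
  have h : Unc hM Y r0 r1 f κ := ⟨h1, h2, h3⟩
  exact ⟨h.acts_kv t, h.acts_fk t⟩

end Vale.Agent.P196.Cut
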